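import Crest.Agent.X212.Bb31.Fp
import Crest.Agent.X212.Cyl58.Cap
import Crest.Agent.X212.Cyl58.Int

-- ▼ part X212/Bb31/Stp
section

/-!
# X212/Bb31/Stp (helper31): a fibred step from one cap to the next (geometry only)

`Stp C C' b b'` covers the surgery `Op` (`w = z² + 1`) and a collar (`w = z`).
-/

set_option autoImplicit false
set_option linter.unusedSectionVars false

open Set Filter Topology Function Module Metric
open scoped ContDiff Manifold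
open Crest.Agent.R208 Crest.Agent.R208.F Crest.Agent.R208.FI Crest.Agent.X212.Dr59
  Crest.Agent.X212.Cyl58
open Crest.Agent.X212.Int54 (tp rat Ori SameOn)
open Crest.Agent.X212.Sep15 (EE IR IC CM End Box slab)
open Crest.Agent.X212.Orx52 (oZ pr)
open Crest.Agent.X212.Sym24 (pu dt sl dT)

noncomputable section

namespace Crest.Agent.X212.Bb31

variable {Y Y' : CM 3} {R : CM 2} {κ κ' : Type}

/-! ### bumps, boxes -/

/-- one on `[b, c]`, zero off `(a, d)` -/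
def bp (a b c d x : ℝ) : ℝ := stp a b x * (1 - stp c d x)

theorem contDiff_bp (a b c d : ℝ) : ContDiff ℝ ∞ (bp a b c d) :=
  (contDiff_stp a b).mul (contDiff_const.sub (contDiff_stp c d))

theorem bp_nonneg (a b c d x : ℝ) : 0 ≤ bp a b c d x :=
  mul_nonneg (stp_nonneg _ _ _) (sub_nonneg.2 (stp_le_one _ _ _))

theorem bp_le_one (a b c d x : ℝ) : bp a b c d x ≤ 1 :=
  mul_le_one₀ (stp_le_one _ _ _) (sub_nonneg.2 (stp_le_one _ _ _))
    (sub_le_self _ (stp_nonneg _ _ _))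

theorem bp_one {a b c d x : ℝ} (h : a < b) (h' : c < d) (hx : b ≤ x) (hx' : x ≤ c) :
    bp a b c d x = 1 := by rw [bp, stp_one h hx, stp_zero h' hx', sub_zero, one_mul]

theorem bp_left {a b c d x : ℝ} (h : a < b) (hx : x ≤ a) : bp a b c d x = 0 := by
  rw [bp, stp_zero h hx, zero_mul]

theorem bp_right {a b c d x : ℝ} (h : c < d) (hx : d ≤ x) : bp a b c d x = 0 := by
  rw [bp, stp_one h hx, sub_self, mul_zero]

theorem bp_zero {a b c d x : ℝ} (h : a < b) (h' : c < d) (hx : x ∉ Icc a d) : bp a b c d x = 0 := by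
  rcases not_and_or.1 hx with k | k
  · exact bp_left h (not_le.1 k).le
  · exact bp_right h' (not_le.1 k).le

theorem isCompact_slab {b : R × ℝ → Y} (hb : Box b) (r s : ℝ) : IsCompact (slab b (Icc r s)) :=
  hb.isCompact_slab r s

theorem mem_slab {b : R × ℝ → Y} (hb : Box b) {s : Set ℝ} {p : R × ℝ} : b p ∈ slab b s ↔ p.2 ∈ s :=
  ⟨fun ⟨_, hq, e⟩ => hb.inj e ▸ hq.2, fun h => ⟨p, ⟨trivial, h⟩, rfl⟩⟩

/-- the union of the slabs -/
def slabs (b : κ → R × ℝ → Y) (s : Set ℝ) : Set Y := ⋃ k, slab (b k) s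

/-- disjoint boxes -/
structure Boxes (b : κ → R × ℝ → Y) : Prop where
  ob : ∀ k, Box (b k)
  dj : ∀ k l p q, b k p = b l q → k = l

theorem exists_of_slabs {b : κ → R × ℝ → Y} {s : Set ℝ} {p : Y} (h : p ∈ slabs b s) :
    ∃ k x y, y ∈ s ∧ p = b k (x, y) := by
  obtain ⟨k, q, hq, rfl⟩ := mem_iUnion.1 h
  exact ⟨k, q.1, q.2, hq.2, rfl⟩

theorem slabs_mono {b : κ → R × ℝ → Y} {s t : Set ℝ} (h : s ⊆ t) : slabs b s ⊆ slabs b t :=
  iUnion_mono fun _ => image_mono (prod_mono Subset.rfl h)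

theorem Boxes.mem {b : κ → R × ℝ → Y} (hb : Boxes b) {s : Set ℝ} {k : κ} {p : R × ℝ} :
    b k p ∈ slabs b s ↔ p.2 ∈ s := by
  refine ⟨fun h => ?_, fun h => mem_iUnion.2 ⟨k, (mem_slab (hb.ob k)).2 h⟩⟩
  obtain ⟨l, q, hq, e⟩ := mem_iUnion.1 h
  obtain rfl := hb.dj _ _ _ _ e
  exact (hb.ob l).inj e ▸ hq.2

theorem Boxes.isClosed [Finite κ] {b : κ → R × ℝ → Y} (hb : Boxes b) (r s : ℝ) :
    IsClosed (slabs b (Icc r s)) :=
  isClosed_iUnion_of_finite fun k => (isCompact_slab (hb.ob k) r s).isClosed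

theorem Boxes.isOpen {b : κ → R × ℝ → Y} (hb : Boxes b) {s : Set ℝ} (hs : IsOpen s) :
    IsOpen (slabs b s) := isOpen_iUnion fun k => (hb.ob k).isOpen_image (isOpen_univ.prod hs)

/-- a function of the height in the boxes -/
theorem Boxes.exists_fun [Finite κ] {b : κ → R × ℝ → Y} (hb : Boxes b) {f : ℝ → ℝ}
    (hf : ContDiff ℝ ∞ f) {r s c : ℝ} (h : ∀ y ∉ Icc r s, f y = c) :
    ∃ m : Y → ℝ, ContMDiff (𝓡 3) 𝓘(ℝ, ℝ) ∞ m ∧ (∀ k p, m (b k p) = f p.2) ∧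
      ∀ p ∉ slabs b (Icc r s), m p = c := by
  have k : ∀ a, ∀ p ∉ (univ ×ˢ Icc r s : Set (R × ℝ)), f p.2 = (fun _ => c) (b a p) :=
    fun _ p hp => h _ fun hy => hp ⟨trivial, hy⟩
  exact ⟨extF b (fun _ p => f p.2) fun _ => c,
    contMDiff_extF (IA := fun _ => IR 2) hb.ob hb.dj
      (fun k => (isCompact_slab (hb.ob k) r s).isClosed) k
      (fun _ => hf.contMDiff.comp contMDiff_snd) fun _ _ => contMDiffAt_const,
    fun k p => extF_apply (fun k => (hb.ob k).inj) hb.dj _ _ k p,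
    fun p hp => extF_eq (fun k => (hb.ob k).inj) hb.dj k hp⟩

/-! ### the step -/

/-- the point over `z` in the box `b` -/
def bw (b : R × ℝ → Y) (w : ℂ → ℂ) (p : R × ℂ) : Y × ℝ := (b (p.1, (w p.2).im), (w p.2).re)

/-- a fibred step -/
structure Stp (C : End Y) (C' : End Y') (b : κ → R × ℝ → Y) (b' : κ' → R × ℝ → Y') where
  i : C.X → C'.X
  X₀ : Set C.X
  e : R × ℂ → C'.X
  w : ℂ → ℂ
  J : ℂ → ℝ
  Ω : κ → Set ℂ
  g : ℝ → ℝ
  φ : Y → Y'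
  bx : Boxes b
  oi : OE (𝓡 4) (𝓡 4) X₀ i
  oe : IsOE IC (𝓡 4) e
  ws : ContDiff ℝ ∞ w
  wJ : ∀ z, pm 𝓘(ℝ, ℂ) 𝓘(ℝ, ℂ) w oZ z = J z • oZ z
  Jp : ∀ z, 1 < (w z).re → 0 < J z
  cp : ∀ r, IsCompact (w ⁻¹' closedBall 0 r)
  oΩ : ∀ k, IsOpen (Ω k)
  eq : ∀ k (p : R × ℂ), p.2 ∈ Ω k → C.j (bw (b k) w p) ∈ X₀ ∧ e p = i (C.j (bw (b k) w p))
  hit : ∀ x ∈ X₀, ∀ p, i x = e p → ∃ k, p.2 ∈ Ω k
  cov : ∀ x, x ∈ i '' X₀ ∨ x ∈ range e
  ax : ∀ z, (∀ k, z ∉ Ω k) → (w z).im = 0 ∧ 1 ≤ (w z).re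
  ont : ∀ k x y t, C.j (b k (x, y), t) ∈ X₀ → ∃ z ∈ Ω k, w z = ⟨t, y⟩
  slt : ∀ x ∉ X₀, ∃ p ∈ slabs b {0}, ∃ t, 1 ≤ t ∧ x = C.j (p, t)
  gm : StrictMono g
  gc : Continuous g
  g0 : 1 < g 0
  gs : ∀ t, 1 < t → ∃ s, g s = t
  ej : ∀ p ∉ slabs b {0}, ∀ s, C'.j (φ p, s) = i (C.j (p, g s))
  ee : ∀ z, 1 < (w z).re → ∃ k, ∀ x s, g s = (w z).re → e (x, z) = C'.j (b' k (x, (w z).im), s)
  su : ∀ p', (∃ p ∉ slabs b {0}, φ p = p') ∨
    ∀ s, 1 < g s → ∃ x z, w z = g s ∧ C'.j (p', s) = e (x, z)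

namespace Stp

variable {C : End Y} {C' : End Y'} {b : κ → R × ℝ → Y} {b' : κ' → R × ℝ → Y'} (S : Stp C C' b b')

/-- the level of the new boundary -/
def T : ℝ := S.g 0

/-- the part which is not changed -/
def A (_ : Stp C C' b b') : Set C.X := (C.j '' (slabs b (Icc (-2⁻¹) 2⁻¹) ×ˢ Ici 2⁻¹))ᶜ

/-- the fibred part -/
def V : Set ℂ := {z | 0 < (S.w z).re ∧ |(S.w z).im| < 3 / 4}

theorem cre : Continuous fun z => (S.w z).re := Complex.continuous_re.comp S.ws.continuous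
theorem cim : Continuous fun z => (S.w z).im := Complex.continuous_im.comp S.ws.continuous

theorem isOpen_V : IsOpen S.V :=
  (isOpen_lt continuous_const S.cre).inter (isOpen_lt S.cim.abs continuous_const)

theorem isOpen_A [Finite κ] : IsOpen S.A :=
  (C.isEnd.isClosed_image ((S.bx.isClosed _ _).prod isClosed_Ici)
    (prod_mono (subset_univ _) (Ici_subset_Ici.2 (by norm_num)))).isOpen_compl

theorem j_mem_A {p : Y × ℝ} : C.j p ∈ S.A ↔ ¬(p.1 ∈ slabs b (Icc (-2⁻¹) 2⁻¹) ∧ 2⁻¹ ≤ p.2) :=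
  not_congr ⟨fun ⟨_, hq, e⟩ => C.oe.inj e ▸ hq, fun h => ⟨p, h, rfl⟩⟩

theorem mem_X₀ {p : Y × ℝ} (h : p.1 ∉ slabs b {0} ∨ p.2 < 1) : C.j p ∈ S.X₀ := by
  by_contra k
  obtain ⟨q, hq, t, ht, e⟩ := S.slt _ k
  obtain rfl := C.oe.inj e
  exact h.elim (fun h => h hq) fun h => h.not_ge ht

theorem A_sub : S.A ⊆ S.X₀ := fun x hx => by
  by_contra k
  obtain ⟨q, hq, t, ht, rfl⟩ := S.slt _ k
  exact S.j_mem_A.1 hx ⟨slabs_mono (by norm_num) hq, le_trans (by norm_num) ht⟩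

theorem oA [Finite κ] : OE (𝓡 4) (𝓡 4) S.A S.i := S.oi.mono S.isOpen_A S.A_sub

theorem oV : OE IC (𝓡 4) (univ ×ˢ S.V) S.e :=
  (OE.of_oe S.oe).mono (isOpen_univ.prod S.isOpen_V) (subset_univ _)

theorem isCompact_rect (a c r : ℝ) :
    IsCompact {z | (S.w z).re ∈ Icc a c ∧ |(S.w z).im| ≤ r} := by
  refine (S.cp (|a| + |c| + r)).of_isClosed_subset
    ((isClosed_Icc.preimage S.cre).inter (isClosed_le S.cim.abs continuous_const)) fun z hz => ?_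
  rw [mem_preimage, mem_closedBall_zero_iff]
  refine (Complex.norm_le_abs_re_add_abs_im _).trans (add_le_add (abs_le.2 ⟨?_, ?_⟩) hz.2)
  · linarith [hz.1.1, neg_abs_le a, abs_nonneg c]
  · linarith [hz.1.2, le_abs_self c, abs_nonneg a]

theorem cm_bw (k : κ) : ContMDiff IC (IR 3) ∞ (bw (b k) S.w) := by
  have h : ∀ f : ℂ →L[ℝ] ℝ, ContMDiff IC 𝓘(ℝ, ℝ) ∞ fun p : R × ℂ => f (S.w p.2) := fun f =>
    (f.contDiff.comp S.ws).contMDiff.comp contMDiff_snd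
  exact ((S.bx.ob k).contMDiff.comp (contMDiff_fst.prodMk (h Complex.imCLM))).prodMk
    (h Complex.reCLM)

theorem e_eq {k : κ} {p : R × ℂ} (h : p.2 ∈ S.Ω k) :
    S.e =ᶠ[𝓝 p] S.i ∘ (C.j ∘ bw (b k) S.w) := by
  filter_upwards [((S.oΩ k).preimage continuous_snd).mem_nhds h] with q hq using (S.eq k q hq).2

/-- forms on the fibred part are read in the old cap -/
theorem pm_e {k : κ} {p : R × ℂ} (h : p.2 ∈ S.Ω k) (a : Fm 4 C'.X) : pm IC (𝓡 4) S.e a p =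
    pm IC (IR 3) (bw (b k) S.w) (pm (IR 3) (𝓡 4) C.j (pm (𝓡 4) (𝓡 4) S.i a)) p := by
  have h1 := (S.cm_bw k p).mdifferentiableAt ne0
  have h2 := (C.oe.contMDiff (bw (b k) S.w p)).mdifferentiableAt ne0
  rw [pm_congr (b := a) (S.e_eq h) rfl, pm_comp h2 h1,
    pm_comp (f := C.j ∘ bw (b k) S.w) ((S.oi.ld _ (S.eq k p h).1).mdifferentiableAt ne0)
      (h2.comp p h1)]

theorem eq_bw {x : C.X} (hx : x ∈ S.X₀) {p : R × ℂ} (h : S.i x = S.e p) :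
    ∃ k, p.2 ∈ S.Ω k ∧ x = C.j (bw (b k) S.w p) := by
  obtain ⟨k, hk⟩ := S.hit x hx p h
  exact ⟨k, hk, S.oi.inj hx (S.eq k p hk).1 (h.trans (S.eq k p hk).2)⟩

theorem exists_e {k : κ} {x : R} {y t : ℝ} (h : C.j (b k (x, y), t) ∈ S.X₀) :
    ∃ z ∈ S.Ω k, (S.w z).re = t ∧ (S.w z).im = y ∧ S.e (x, z) = S.i (C.j (b k (x, y), t)) := by
  obtain ⟨z, hz, e⟩ := S.ont k x y t h
  refine ⟨z, hz, by rw [e], by rw [e], ?_⟩
  rw [(S.eq k (x, z) hz).2, bw, e]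

theorem cov' (x : C'.X) : x ∈ S.i '' S.A ∨ x ∈ S.e '' (univ ×ˢ S.V) := by
  rcases S.cov x with ⟨x, hx, rfl⟩ | ⟨p, rfl⟩
  · by_cases h : x ∈ S.A
    · exact .inl (mem_image_of_mem _ h)
    · obtain ⟨⟨p, t⟩, ⟨hp, ht⟩, rfl⟩ := not_not.1 h
      obtain ⟨k, x, y, hy, rfl⟩ := exists_of_slabs hp
      obtain ⟨z, -, h1, h2, h3⟩ := S.exists_e hx
      refine .inr ⟨(x, z), ⟨trivial, ?_, ?_⟩, h3⟩
      · exact h1 ▸ lt_of_lt_of_le (by norm_num) ht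
      · exact h2 ▸ (abs_le.2 hy).trans_lt (by norm_num)
  · by_cases h : p.2 ∈ S.V
    · exact .inr ⟨p, ⟨trivial, h⟩, rfl⟩
    · obtain ⟨k, hk⟩ : ∃ k, p.2 ∈ S.Ω k := by
        by_contra k
        obtain ⟨h1, h2⟩ := S.ax _ (not_exists.1 k)
        exact h ⟨one_pos.trans_le h2, by rw [h1]; norm_num⟩
      refine .inl ⟨_, S.j_mem_A.2 fun ⟨h1, h2⟩ => h ⟨lt_of_lt_of_le (by norm_num) h2, ?_⟩,
        (S.eq k p hk).2.symm⟩
      exact (abs_le.2 (S.bx.mem.1 h1)).trans_lt (by norm_num)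

theorem lev_e {p' : Y'} {s : ℝ} (hs : 1 < S.g s) {p : R × ℂ} (h : S.e p = C'.j (p', s)) :
    (S.w p.2).re = S.g s := by
  rcases S.su p' with ⟨q, hq, rfl⟩ | k
  · obtain ⟨k, -, e⟩ := S.eq_bw (S.mem_X₀ (p := (q, S.g s)) (.inl hq)) ((S.ej q hq s).symm.trans h.symm)
    exact (congrArg Prod.snd (C.oe.inj e)).symm
  · obtain ⟨x, z, h1, h2⟩ := k s hs
    rw [S.oe.inj (h.trans h2), h1, Complex.ofReal_re]

theorem lev_i {p' : Y'} {s : ℝ} (hs : 1 < S.g s) {x : C.X} (hx : x ∈ S.X₀)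
    (h : S.i x = C'.j (p', s)) : ∃ p, x = C.j (p, S.g s) := by
  rcases S.su p' with ⟨q, hq, rfl⟩ | k
  · exact ⟨q, S.oi.inj hx (S.mem_X₀ (p := (q, S.g s)) (.inl hq)) (h.trans (S.ej q hq s))⟩
  · obtain ⟨y, z, h1, h2⟩ := k s hs
    obtain ⟨k, -, e⟩ := S.eq_bw hx (h.trans h2)
    exact ⟨_, by rw [e, bw, h1, Complex.ofReal_re]⟩

theorem e_le {p : R × ℂ} (h : S.e p ∈ C'.K 0) : (S.w p.2).re ≤ S.T := by
  by_contra k
  have k := not_le.1 k
  obtain ⟨s, hs⟩ := S.gs _ (S.g0.trans k)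
  obtain ⟨l, e⟩ := S.ee _ (S.g0.trans k)
  rw [show p = (p.1, p.2) from rfl, e _ s hs, C'.j_mem_K] at h
  exact (S.gm.monotone h).not_gt (hs ▸ k)

theorem i_mem {x : C.X} (hx : x ∈ S.X₀) (h : S.i x ∈ C'.K 0) : x ∈ C.K S.T := by
  by_contra k
  obtain ⟨⟨p, t⟩, ⟨-, ht⟩, rfl⟩ := not_not.1 k
  by_cases hp : p ∈ slabs b {0}
  · obtain ⟨k, x, y, -, rfl⟩ := exists_of_slabs hp
    obtain ⟨z, -, h1, -, h3⟩ := S.exists_e hx
    exact (S.e_le (p := (x, z)) (h3 ▸ h)).not_gt (h1 ▸ ht)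
  · obtain ⟨s, rfl⟩ := S.gs t (S.g0.trans ht)
    rw [← S.ej p hp, C'.j_mem_K] at h
    exact (S.gm.monotone h).not_gt ht

/-- a margin below the new boundary -/
theorem exists_margin {ε : ℝ} (hε : 0 < ε) : ∃ T₁, 1 < T₁ ∧ T₁ < S.T ∧ ∀ s, T₁ ≤ S.g s → -ε < s := by
  obtain ⟨T₁, h1, h2⟩ := exists_between (max_lt S.g0 (S.gm (neg_lt_zero.2 hε)))
  exact ⟨T₁, (le_max_left _ _).trans_lt h1, h2,
    fun s hs => S.gm.lt_iff_lt.1 (((le_max_right _ _).trans_lt h1).trans_le hs)⟩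

theorem exists_eps {T₁ : ℝ} (h : T₁ < S.T) : ∃ ε > (0 : ℝ), ∀ s, -ε < s → T₁ < S.g s := by
  obtain ⟨ε, hε, k⟩ := Metric.eventually_nhds_iff.1 (S.gc.continuousAt.eventually (lt_mem_nhds h))
  refine ⟨ε, hε, fun s hs => ?_⟩
  rcases le_or_gt 0 s with h0 | h0
  · exact h.trans_le (S.gm.monotone h0)
  · exact k (by rw [Real.dist_eq, sub_zero, abs_of_neg h0]; linarith)

/-- a form which vanishes above a level below the boundary -/
theorem en_zero {a : Fm 4 C'.X} {T₁ : ℝ} (h1 : 1 ≤ T₁) (h : T₁ < S.T)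
    (ha : ∀ p' s, T₁ < S.g s → 1 < S.g s → a (C'.j (p', s)) = 0) : En C'.j a (0 : Fm 3 Y') := by
  obtain ⟨ε, hε, k⟩ := S.exists_eps h
  refine ⟨ε, hε, fun p hp => ?_⟩
  rw [pm_apply, ha p.1 p.2 (k _ hp) (h1.trans_lt (k _ hp)), map_zero]
  exact (map_zero _).symm

theorem cm_φ {p : Y} [Finite κ] (hp : p ∉ slabs b {0}) : ContMDiffAt (𝓡 3) (𝓡 3) ∞ S.φ p := by
  have o : IsOpen (slabs b {0})ᶜ := by
    rw [← Icc_self]
    exact (S.bx.isClosed 0 0).isOpen_compl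
  have h1 : ContMDiffAt (𝓡 3) (𝓡 4) ∞ (fun q => S.i (C.j (q, S.g 0))) p :=
    (S.oi.ld _ (S.mem_X₀ (p := (p, S.g 0)) (.inl hp))).contMDiffAt.comp p
      ((C.oe.contMDiff _).comp p (contMDiffAt_id.prodMk contMDiffAt_const))
  have h2 : ContMDiffAt (𝓡 3) (IR 3) ∞ (fun q => (S.φ q, (0 : ℝ))) p :=
    C'.oe.contMDiffAt_left (h1.congr_of_eventuallyEq
      (eventually_of_mem (o.mem_nhds hp) fun q hq => S.ej q hq 0))
  exact contMDiffAt_fst.comp p h2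

end Stp

end Crest.Agent.X212.Bb31
end
end

-- ▼ part X212/Bb31/Fin

/-!
# X212/Bb31/Fin (helper31): the symplectic forms on the new cap

`pos_box`, `Stp.final` : normalised forms on the new cap become pairwise positive.
-/

set_option autoImplicit false
set_option linter.unusedSectionVars false

open Set Filter Topology Function Module Metric
open scoped ContDiff Manifold
open Crest.Agent.R208 Crest.Agent.R208.F Crest.Agent.R208.FI Crest.Agent.X212.Dr59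
  Crest.Agent.X212.Cyl58
open Crest.Agent.X212.Int54 (tp rat Ori SameOn)
open Crest.Agent.X212.Sep15 (EE IR IC CM End Box slab)
open Crest.Agent.X212.Orx52 (oZ pr)
open Crest.Agent.X212.Sym24 (pu dt sl dT)

noncomputable section

namespace Crest.Agent.X212.Bb31

variable {Y Y' : CM 3} {R : CM 2} {κ κ' : Type}

theorem En.common {n m : ℕ} {Y X : Type} [TopologicalSpace Y] [ChartedSpace (EE n) Y]
    [TopologicalSpace X] [ChartedSpace (EE m) X] {j : Y × ℝ → X} {ι : Type} [Finite ι]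
    {a : ι → Fm m X} {b : ι → Fm n Y} (h : ∀ q, En j (a q) (b q)) :
    ∃ ε > (0 : ℝ), ∀ q (p : Y × ℝ), -ε < p.2 → pm (IR n) (𝓡 m) j (a q) p = pu (b q) p := by
  have k : ∀ q, ∀ᶠ ε : ℝ in 𝓝[>] 0, ∀ p : Y × ℝ, -ε < p.2 →
      pm (IR n) (𝓡 m) j (a q) p = pu (b q) p := fun q => by
    obtain ⟨ε, hε, k⟩ := h q
    filter_upwards [mem_nhdsWithin_of_mem_nhds (Iio_mem_nhds hε)] with δ hδ p hp
    exact k p ((neg_lt_neg hδ).trans hp)
  obtain ⟨ε, h1, h2⟩ := ((eventually_all.2 k).and self_mem_nhdsWithin).exists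
  exact ⟨ε, h2, h1⟩

theorem En.add {n m : ℕ} {Y X : Type} [TopologicalSpace Y] [ChartedSpace (EE n) Y]
    [TopologicalSpace X] [ChartedSpace (EE m) X] {j : Y × ℝ → X} {a a' : Fm m X} {b b' : Fm n Y}
    (h : En j a b) (h' : En j a' b') : En j (a + a') (b + b') := by
  obtain ⟨ε, hε, k⟩ := h
  obtain ⟨ε', hε', k'⟩ := h'
  refine ⟨min ε ε', lt_min hε hε', fun p hp => ?_⟩
  rw [pm_add, Sym24.pu_add, Pi.add_apply, Pi.add_apply,
    k p ((neg_le_neg (min_le_left _ _)).trans_lt hp), k' p ((neg_le_neg (min_le_right _ _)).trans_lt hp)]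

/-- positivity against a multiple of `dy` is positivity of the slice -/
theorem pos_box {b : R × ℝ → Y} (hb : Box b) {oR : Fm 2 R} {o τ B : Fm 3 Y} (hc : Cy oR o b)
    {x : R} {y f : ℝ} (hf : 0 < f) (h : pm (IR 2) (𝓡 3) b τ (x, y) = f • dT (EE 2)) :
    0 < rat o (τ * B) (b (x, y)) ↔ 0 < rat oR (sl y (pm (IR 2) (𝓡 3) b B)) x := by
  rw [pos_ld (hb.loc (x, y)) (hc _ trivial), Orx52.pos_rat, Orx52.pos_rat, pm_mul, Pi.mul_apply,
    Pi.mul_apply, h, smul_mul_assoc, map_smul, smul_eq_mul, mul_left_comm,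
    mul_pos_iff_of_pos_left hf]
  exact (Sym24.pos_dT_iff _ _).trans (by rw [Sym24.nc_dT_mul]; rfl)

theorem pos_box' {b : R × ℝ → Y} (hb : Box b) {oR : Fm 2 R} {o τ B : Fm 3 Y} (hc : Cy oR o b)
    {x : R} {y f : ℝ} (hf : 0 < f) (h : pm (IR 2) (𝓡 3) b τ (x, y) = f • dT (EE 2))
    (hB : IsDeg 2 (B (b (x, y)))) :
    0 < rat o (B * τ) (b (x, y)) ↔ 0 < rat oR (sl y (pm (IR 2) (𝓡 3) b B)) x := by
  rw [← pos_box hb hc hf h, rat, rat, Pi.mul_apply, Pi.mul_apply, Sym24.comm2 hB]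

/-- a cut-off and a form which is `dy` in the boxes -/
theorem Boxes.exists_dy [Finite κ] {b : κ → R × ℝ → Y} (hb : Boxes b) :
    ∃ (ρ : Y → ℝ) (σ : Fm 3 Y), ContMDiff (𝓡 3) 𝓘(ℝ, ℝ) ∞ ρ ∧ F1 σ ∧ (∀ p, ρ p ∈ Icc (0 : ℝ) 1) ∧
      (∀ k x y, |y| ≤ 3 / 4 → ρ (b k (x, y)) = 1) ∧ (∀ p ∉ slabs b (Ioo (-1) 1), ρ p = 0) ∧
      ∀ k x, ∀ y ∈ Ioo (-1 : ℝ) 1, pm (IR 2) (𝓡 3) (b k) σ (x, y) = dT (EE 2) := by
  obtain ⟨ρ, r1, r2, r3⟩ := hb.exists_fun (contDiff_bp (-(7 / 8)) (-(3 / 4)) (3 / 4) (7 / 8))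
    (r := -(7 / 8)) (s := 7 / 8) (c := 0) fun y hy => bp_zero (by norm_num) (by norm_num) hy
  obtain ⟨h, h1, h2, -⟩ := hb.exists_fun (contDiff_id.mul (contDiff_bp (-2) (-1) 1 2))
    (r := -2) (s := 2) (c := 0) fun y hy => by
      rw [bp_zero (by norm_num) (by norm_num) hy, mul_zero]
  refine ⟨ρ, df (𝓡 3) h, r1, ⟨sm_df fun p _ => h1 p, dg_df h⟩, fun p => ?_, fun k x y hy => ?_,
    fun p hp => r3 p fun k => hp (slabs_mono (Icc_subset_Ioo (by norm_num) (by norm_num)) k),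
    fun k x y hy => ?_⟩
  · by_cases hp : p ∈ slabs b (Icc (-(7 / 8)) (7 / 8))
    · obtain ⟨k, x, y, -, rfl⟩ := exists_of_slabs hp
      rw [r2]
      exact ⟨bp_nonneg _ _ _ _ _, bp_le_one _ _ _ _ _⟩
    · rw [r3 p hp]
      exact ⟨le_rfl, zero_le_one⟩
  · rw [r2]
    exact bp_one (by norm_num) (by norm_num) (abs_le.1 hy).1 (abs_le.1 hy).2
  · rw [pm_df (((hb.ob k).contMDiff _).mdifferentiableAt ne0) ((h1 _).mdifferentiableAt ne0),
      show h ∘ b k = _ from funext (h2 k), ← one_smul ℝ (dT (EE 2))]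
    refine Sym24.df_comp_snd (g := fun y => id y * bp (-2) (-1) 1 2 y) (p := (x, y))
      ((hasDerivAt_id y).congr_of_eventuallyEq ?_)
    filter_upwards [Ioo_mem_nhds hy.1 hy.2] with z hz
    rw [bp_one (by norm_num) (by norm_num) hz.1.le hz.2.le, mul_one]

namespace Stp

variable {C : End Y} {C' : End Y'} {b : κ → R × ℝ → Y} {b' : κ' → R × ℝ → Y'} (S : Stp C C' b b')

theorem cov₂ (x : C'.X) : x ∈ S.i '' S.A ∨
    ∃ p, S.e p = x ∧ p.2 ∈ S.V ∧ 2⁻¹ ≤ (S.w p.2).re ∧ |(S.w p.2).im| ≤ 2⁻¹ := by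
  refine or_iff_not_imp_left.2 fun hx => ?_
  obtain ⟨p, hp, rfl⟩ := (S.cov' x).resolve_left hx
  refine ⟨p, rfl, hp.2, ?_⟩
  by_contra h
  obtain ⟨k, hk⟩ : ∃ k, p.2 ∈ S.Ω k := by
    by_contra k
    obtain ⟨h1, h2⟩ := S.ax _ (not_exists.1 k)
    exact h ⟨le_trans (by norm_num) h2, by rw [h1]; norm_num⟩
  exact hx ⟨_, S.j_mem_A.2 fun ⟨h1, h2⟩ => h ⟨h2, abs_le.2 (S.bx.mem.1 h1)⟩, (S.eq k p hk).2.symm⟩

/-- the height coordinate -/
def q (p : R × ℂ) : R × ℝ := (p.1, (S.w p.2).im)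

theorem sre : ContDiff ℝ ∞ fun z => (S.w z).re := Complex.reCLM.contDiff.comp S.ws
theorem sim : ContDiff ℝ ∞ fun z => (S.w z).im := Complex.imCLM.contDiff.comp S.ws

theorem cm_q : ContMDiff IC (IR 2) ∞ S.q :=
  contMDiff_fst.prodMk (S.sim.contMDiff.comp contMDiff_snd)

theorem pm_bw_pu (k : κ) (a : Fm 3 Y) (p : R × ℂ) : pm IC (IR 3) (bw (b k) S.w) (pu a) p =
    pm IC (IR 2) S.q (pm (IR 2) (𝓡 3) (b k) a) p := by
  rw [← Sym24.pm_fst (I := 𝓡 3), pm_comp mdifferentiableAt_fst ((S.cm_bw k p).mdifferentiableAt ne0),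
    pm_comp (((S.bx.ob k).contMDiff _).mdifferentiableAt ne0) ((S.cm_q p).mdifferentiableAt ne0)]
  rfl

theorem pm_q_dt (p : R × ℂ) : pm IC (IR 2) S.q (dt (EE 2) R) p =
    ar R (df 𝓘(ℝ, ℂ) fun z => (S.w z).im) p := by
  rw [← Sym24.df_snd (I := 𝓡 2), pm_df ((S.cm_q p).mdifferentiableAt ne0) mdifferentiableAt_snd, ar,
    pm_df mdifferentiableAt_snd ((S.sim.contMDiff _).mdifferentiableAt ne0)]
  rfl

/-- the primitive `-δ (t - T) dy` on the base -/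
def l₀ (δ : ℝ) : ℂ → Ext ℂ :=
  (fun z => -(δ * ((S.w z).re - S.T))) • df 𝓘(ℝ, ℂ) fun z => (S.w z).im

theorem sm_l₀ (δ : ℝ) : Sm 𝓘(ℝ, ℂ) univ (S.l₀ δ) :=
  Sm.fsmul (fun _ _ => (contDiff_const.mul (S.sre.sub contDiff_const)).neg.contMDiff _)
    (sm_df fun _ _ => S.sim.contMDiff _)

theorem dM_l₀ (δ : ℝ) (z : ℂ) : dM 𝓘(ℝ, ℂ) (S.l₀ δ) z = -(δ * S.J z) • oZ z := by
  have h1 : ContDiff ℝ ∞ fun z => -(δ * ((S.w z).re - S.T)) :=
    (contDiff_const.mul (S.sre.sub contDiff_const)).neg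
  have h2 : df 𝓘(ℝ, ℂ) (fun z => -(δ * ((S.w z).re - S.T))) z =
      -δ • df 𝓘(ℝ, ℂ) (fun z => (S.w z).re) z := by
    have := ((((S.sre.differentiable (by simp) z).hasFDerivAt.sub_const S.T).const_mul δ).neg).fderiv
    rw [df, df, mf_eq_fderiv, mf_eq_fderiv, ← map_smul]
    refine congrArg io ?_
    rw [show (fun z => -(δ * ((S.w z).re - S.T))) = -fun z => δ * ((S.w z).re - S.T) from rfl, this]
    ext v
    simp
  rw [l₀, dM_fsmul ne0 ((h1.contMDiff z).mdifferentiableAt ne0) (smAt_df (S.sim.contMDiff z)),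
    dM_df (S.sim.contMDiff z), smul_zero, add_zero, h2, smul_mul_assoc,
    ← Orx52.pm_oZ ((S.ws.contMDiff z).mdifferentiableAt ne0), S.wJ, smul_smul, neg_mul]

theorem dM_ar_l₀ (δ : ℝ) (p : R × ℂ) :
    dM IC (ar R (S.l₀ δ)) p = -(δ * S.J p.2) • ar R oZ p := by
  rw [ar, dM_pm ne0 contMDiffAt_snd (S.sm_l₀ δ _ trivial), ← ar, ar_apply, ar_apply, S.dM_l₀, map_smul]

/-- **the last step** -/
theorem final [Finite κ] (hN : NfStmt) {o : Fm 3 Y} {O : Fm 4 C.X} {O' : Fm 4 C'.X} {oR : Fm 2 R}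
    (ho : Ori (𝓡 3) o) (hO : Ori (𝓡 4) O) (hO' : Ori (𝓡 4) O') (hc : Cy o O C.j)
    (hb : ∀ k, Cy oR o (b k)) (hi : SameOn (pm (𝓡 4) (𝓡 4) S.i O') O S.X₀)
    (he : SameOn (pm IC (𝓡 4) S.e O') (oP oR) univ) {ι : Type} [Finite ι] {Z : ι → Fm 4 C'.X}
    {z : ι → Fm 4 C.X} {B : ι → Fm 3 Y} {B' : ι → Fm 3 Y'} (hZ : ∀ q, Z2 (Z q))
    (hz : ∀ q, Z2 (z q)) (eB : ∀ q, En C.j (z q) (B q)) (eB' : ∀ q, En C'.j (Z q) (B' q))
    (hA : ∀ q, ∀ x ∈ S.A, pm (𝓡 4) (𝓡 4) S.i (Z q) x = z q x)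
    (hB : ∀ q k, SP oR (b k) (B q) (Ioo (-1) 1))
    (hF : ∀ q, FP oR (pm IC (𝓡 4) S.e (Z q)) {u | u ∈ S.V ∧ (S.w u).re ≤ S.T}) (hG : Gd C O z) :
    ∃ v : Fm 4 C'.X, Z2 v ∧ En C'.j v (0 : Fm 3 Y') ∧ Gd C' O' fun q => Z q + v := by
  obtain ⟨ν, n1, n2, n3⟩ := hN Y C o O ho hO hc ι z B hz eB hG
  obtain ⟨ρ, σ, r1, r2, r3, r4, r5, r6⟩ := S.bx.exists_dy
  let α : ι → Fm 3 Y := fun q => ρ • σ + (fun p => 1 - ρ p) • ν q
  have a1 : ∀ q, F1 (α q) := fun q =>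
    ⟨(r2.sm.fsmul fun p _ => r1 p).add ((n1 q).sm.fsmul fun p _ => contMDiffAt_const.sub (r1 p)),
      (r2.dg.fsmul _).add ((n1 q).dg.fsmul _)⟩
  have a2 : ∀ q r p, 0 < rat o (α q * B r + α r * B q) p := fun q r p => by
    have e : rat o (α q * B r + α r * B q) p = ρ p * (rat o (σ * B r) p + rat o (σ * B q) p) +
        (1 - ρ p) * rat o (ν q * B r + ν r * B q) p := by
      simp only [α, rat, Pi.add_apply, Pi.mul_apply, Pi.smul_apply', add_mul, smul_mul_assoc,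
        map_add, map_smul, smul_eq_mul]
      ring
    rw [e]
    by_cases hp : p ∈ slabs b (Ioo (-1) 1)
    · obtain ⟨k, x, y, hy, rfl⟩ := exists_of_slabs hp
      have k1 : ∀ q, 0 < rat o (σ * B q) (b k (x, y)) := fun q =>
        (pos_box (S.bx.ob k) (hb k) one_pos (by rw [r6 k x y hy, one_smul])).2 (hB q k x y hy)
      have k2 := add_pos (k1 r) (k1 q)
      have k3 := n2 q r (b k (x, y))
      rcases (r3 (b k (x, y))).1.eq_or_lt with h | h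
      · rw [← h]; simpa using k3
      · exact add_pos_of_pos_of_nonneg (mul_pos h k2) (mul_nonneg (sub_nonneg.2 (r3 _).2) k3.le)
    · rw [r5 p hp]; simpa using n2 q r p
  obtain ⟨ε₀, hε₀, δ, hδ, n4⟩ := n3 α a1 a2 S.T S.T
  obtain ⟨lN, l1, l2, l3⟩ := n4 δ hδ le_rfl
  have c1 : Sm IC univ (ar R (S.l₀ δ)) := (S.sm_l₀ δ).pm mp_snd'
  have c2 : Dg 1 univ (ar R (S.l₀ δ)) := ((dg_df _).fsmul _).pm (mapsTo_univ _ _)
  have hp : ∀ q, ∃ la : Fm 4 C'.X, F1 la ∧ (∀ x ∈ S.A, pm (𝓡 4) (𝓡 4) S.i la x = lN q x) ∧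
      ∀ p ∈ univ ×ˢ S.V, pm IC (𝓡 4) S.e la p = ar R (S.l₀ δ) p := fun q => by
    obtain ⟨la, h1, h2, h3, h4, -⟩ := exists_patch (a := lN q) (b := ar R (S.l₀ δ)) S.oA S.oV S.cov'
      fun x hx p hp e => by
        obtain ⟨k, hk, rfl⟩ := S.eq_bw (S.A_sub hx) e
        have m1 := (S.cm_bw k p).mdifferentiableAt ne0
        have m2 := (C.oe.contMDiff (bw (b k) S.w p)).mdifferentiableAt ne0
        refine ⟨C.j ∘ bw (b k) S.w, rfl, S.e_eq hk, m2.comp p m1, ?_⟩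
        have h5 : pm (IR 2) (𝓡 3) (b k) (α q) (S.q p) = dt (EE 2) R (S.q p) := by
          have h6 := abs_lt.1 hp.2.2
          simp only [α, pm_add, pm_fsmul, Pi.add_apply, Pi.smul_apply', comp_apply]
          rw [Stp.q, r4 k _ _ hp.2.2.le, r6 k _ _ ⟨by linarith [h6.1], by linarith [h6.2]⟩]
          simp [dt]
        rw [← pm_comp m2 m1, pm_apply, l2 q _ ((neg_lt_zero.2 hε₀).trans hp.2.1), map_smul,
          ← pm_apply, S.pm_bw_pu, pm_congr_right h5, S.pm_q_dt, l₀, ar_smul]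
        rfl
    exact ⟨la, ⟨h3 ((l1 q).sm.mono (subset_univ _)) (c1.mono (subset_univ _)),
      h4 1 ((l1 q).dg.mono (subset_univ _)) (c2.mono (subset_univ _))⟩, h1, h2⟩
  choose la m1 m2 m3 using hp
  obtain ⟨ε, hε, eZ⟩ := En.common eB'
  obtain ⟨T₁, t1, t2, t3⟩ := S.exists_margin hε
  obtain ⟨T₂, t4, t5⟩ := exists_between t2
  let g : ℂ → ℝ := fun u => bp 4⁻¹ 2⁻¹ T₁ T₂ (S.w u).re * bp (-(5 / 8)) (-2⁻¹) 2⁻¹ (5 / 8) (S.w u).im
  have g1 : ContDiff ℝ ∞ g := ((contDiff_bp _ _ _ _).comp S.sre).mul ((contDiff_bp _ _ _ _).comp S.sim)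
  have g2 : ∀ u, 0 ≤ g u := fun u => mul_nonneg (bp_nonneg _ _ _ _ _) (bp_nonneg _ _ _ _ _)
  obtain ⟨γ, y1, y2, -, -, y3⟩ := (OE.of_oe S.oe).exists_push (a := ar R (g • oZ))
    (isCompact_univ.prod (S.isCompact_rect 4⁻¹ T₂ (5 / 8))) (subset_univ _) fun p _ hp => by
      have : g p.2 = 0 := by
        rcases not_and_or.1 (fun h => hp ⟨trivial, h⟩) with h | h
        · exact mul_eq_zero_of_left (bp_zero (by norm_num) t4 h) _
        · exact mul_eq_zero_of_right _ (bp_zero (by norm_num) (by norm_num) fun k => h (abs_le.2 k))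
      rw [ar_smul, this, zero_smul]
  have y4 : Z2 γ := y3 2 (cl_ar g1)
  let W : ι → Fm 4 C'.X := fun q => Z q - dM (𝓡 4) (la q)
  have w1 : ∀ q, Sm (𝓡 4) univ (W q) := fun q => (hZ q).sm.sub (m1 q).sm.dM
  have w2 : ∀ q (p : R × ℂ), p.2 ∈ S.V → pm IC (𝓡 4) S.e (W q) p =
      pm IC (𝓡 4) S.e (Z q) p + (δ * S.J p.2) • ar R oZ p := fun q p hp => by
    rw [pm_sub, Pi.sub_apply, S.oV.pm_dM (m3 q) ((m1 q).sm.mono (subset_univ _)) ⟨trivial, hp⟩,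
      S.dM_ar_l₀, neg_smul, sub_neg_eq_add]
  have zz : ∀ p : R × ℂ, ar R oZ p * ar R oZ p = 0 := fun p =>
    ar_mul_ar (Orx52.dg_oZ (s := univ) _ trivial)
  have w3 : ∀ q (p : R × ℂ), p.2 ∈ S.V → rat (oP oR) (pm IC (𝓡 4) S.e (W q * γ)) p =
      g p.2 * rat oR (sz p.2 (pm IC (𝓡 4) S.e (Z q))) p.1 := fun q p hp => by
    rw [← rat_mul_ar, rat, rat, pm_mul, Pi.mul_apply, Pi.mul_apply, w2 q p hp, y1 p trivial, ar_smul,
      mul_smul_comm, add_mul, smul_mul_assoc, zz, smul_zero, add_zero, map_smul, smul_eq_mul,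
      mul_div_assoc]
  obtain ⟨n, -, hn⟩ := thurston (C'.isCompact_K 0) hO' (fun q => (w1 q).mono (subset_univ _))
    (y4.sm.mono (subset_univ _)) (y4.dg.mono (subset_univ _)) (w := W) (fun x _ => by
      by_cases h : x ∈ range S.e
      · obtain ⟨p, rfl⟩ := h
        refine zero_of_pm (a := γ * γ) (S.oe.loc p) ?_
        rw [pm_mul, Pi.mul_apply, y1 p trivial, ar_smul, smul_mul_smul_comm, zz, smul_zero]
      · rw [y2 x fun k => h (image_subset_range _ _ k), mul_zero])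
    (fun q x hx => by
      by_cases h : γ x = 0
      · simp [rat, h]
      · obtain ⟨p, hp, rfl⟩ := not_not.1 (mt (y2 x) h)
        have hV : p.2 ∈ S.V := ⟨lt_of_lt_of_le (by norm_num) hp.2.1.1, hp.2.2.trans_lt (by norm_num)⟩
        refine nonneg_ld (S.oe.loc p) (he p trivial) ?_
        rw [w3 q p hV]
        exact mul_nonneg (g2 _) (hF q _ ⟨hV, S.e_le hx⟩ _).le)
    (fun x hx => by
      rcases S.cov₂ x with ⟨x, h, rfl⟩ | ⟨p, rfl, hV, h1, h2⟩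
      · refine .inr fun q r => (pos_ld (S.oA.ld x h) (hi x (S.A_sub h)) _).2 ?_
        have k : ∀ q, pm (𝓡 4) (𝓡 4) S.i (W q) x = (z q - dM (𝓡 4) (lN q)) x := fun q => by
          rw [pm_sub, Pi.sub_apply, hA q x h, S.oA.pm_dM (m2 q) ((m1 q).sm.mono (subset_univ _)) h]
          rfl
        rw [rat, pm_mul, Pi.mul_apply, k, k]
        exact l3 q r x (S.i_mem (S.A_sub h) hx)
      have k := fun q => hF q _ ⟨hV, S.e_le hx⟩ p.1
      rcases le_total (S.w p.2).re T₁ with h3 | h3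
      · refine .inl fun q => (pos_ld (S.oe.loc p) (he p trivial) _).2 ?_
        rw [w3 q p hV, show g p.2 = 1 by
          simp only [g]
          rw [bp_one (by norm_num) t4 h1 h3,
            bp_one (by norm_num) (by norm_num) (abs_le.1 h2).1 (abs_le.1 h2).2, one_mul], one_mul]
        exact k q
      · refine .inr fun q r => (pos_ld (S.oe.loc p) (he p trivial) _).2 ?_
        obtain ⟨s, hs⟩ := S.gs _ (t1.trans_le h3)
        obtain ⟨l, e⟩ := S.ee _ (t1.trans_le h3)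
        have h4 : tp (EE 2 × ℂ) (pm IC (𝓡 4) S.e (Z q * Z r) p) = 0 := by
          have h5 := Orx52.tp_ld (C'.oe.loc (b' l (p.1, (S.w p.2).im), s)) (Z q * Z r)
          have h6 := t3 s (hs ▸ h3)
          rw [pm_mul, Pi.mul_apply, eZ q _ h6, eZ r _ h6, pu, pu, ← map_mul, Sym24.tp_up,
            ← e _ s hs] at h5
          rw [Orx52.tp_ld (S.oe.loc p), (mul_eq_zero.1 h5.symm).resolve_left
            (Orx52.jac_ld (C'.oe.loc _)), mul_zero]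
        have h7 : rat (oP oR) (pm IC (𝓡 4) S.e (W q * W r)) p = δ * S.J p.2 *
            (rat oR (sz p.2 (pm IC (𝓡 4) S.e (Z q))) p.1 +
              rat oR (sz p.2 (pm IC (𝓡 4) S.e (Z r))) p.1) := by
          rw [pm_mul, Pi.mul_apply] at h4
          have h8 : ar R oZ p * pm IC (𝓡 4) S.e (Z r) p = pm IC (𝓡 4) S.e (Z r) p * ar R oZ p :=
            Sym24.comm2 (((hZ r).dg _ trivial).pb _) _
          rw [← rat_mul_ar, ← rat_mul_ar, rat, rat, rat, pm_mul, Pi.mul_apply, Pi.mul_apply,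
            Pi.mul_apply, w2 q p hV, w2 r p hV]
          simp only [add_mul, mul_add, smul_mul_assoc, mul_smul_comm, zz, h8, smul_zero, map_add,
            map_smul, h4, smul_eq_mul, add_zero]
          ring
        rw [h7]
        exact mul_pos (mul_pos hδ (S.Jp _ (t1.trans_le h3))) (add_pos (k q) (k r)))
  refine ⟨n • γ, y4.smul n, S.en_zero (t1.trans t4).le t5 fun p' s h1 h2 => ?_, la, m1,
    fun q => funext fun p' => ?_, fun q r x hx => ?_⟩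
  · rw [Pi.smul_apply, y2 _ ?_, smul_zero]
    rintro ⟨p, hp, e⟩
    exact hp.2.1.2.not_gt (S.lev_e h2 e ▸ h1)
  · have k : la q (C'.j (p', 0)) = 0 := by
      rcases S.cov' (C'.j (p', 0)) with ⟨x, h, e⟩ | ⟨p, h, e⟩
      · obtain ⟨p, rfl⟩ := S.lev_i S.g0 (S.A_sub h) e
        rw [← e]
        refine zero_of_pm (S.oA.ld _ h) ((m2 q _ h).trans (zero_of_pm (C.oe.loc _) ?_))
        rw [l2 q _ ((neg_lt_zero.2 hε₀).trans (one_pos.trans S.g0))]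
        simp [Stp.T]
      · rw [← e]
        refine zero_of_pm (S.oe.loc p) ((m3 q p h).trans ?_)
        rw [l₀, ar_smul, S.lev_e S.g0 e]
        simp [Stp.T]
    rw [sl, pm_apply, k, map_zero, map_zero]
    rfl
  · simpa only [W, add_sub_right_comm] using hn q r x hx

end Stp

end Crest.Agent.X212.Bb31
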