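import Crest.Agent.X212.Sep15.Raw
import Crest.Agent.X212.Cyl58.Int
import Crest.Agent.X212.Bb31.Defs

-- ▼ part X212/Sep15/Cm
section

/-!
# X212/Sep15/Cm (helper15): calculus of regluings; a commutator is two exchanges

* `Rg.symm`, `Rg.exists_trans` (a product is two regluings), `Rg.exists_iso` (isotopy),
  `Rg.exists_diffeo` (uniqueness), `exists_track`;
* `Lv`, `Cm`, `exists_cm`.
-/

set_option autoImplicit false
set_option linter.unusedSectionVars false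

open Set Filter Topology Function
open scoped ContDiff Manifold
open Crest.Agent.X212.Cyl58

noncomputable section

namespace Crest.Agent.X212.Sep15

section pd

variable {EA HA EB HB : Type*} [NormedAddCommGroup EA] [NormedSpace ℝ EA] [TopologicalSpace HA]
  [NormedAddCommGroup EB] [NormedSpace ℝ EB] [TopologicalSpace HB]
  {IA : ModelWithCorners ℝ EA HA} {IB : ModelWithCorners ℝ EB HB}
  {A B : Type*} [TopologicalSpace A] [ChartedSpace HA A] [TopologicalSpace B] [ChartedSpace HB B]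

/-- a map which is an injective local diffeomorphism on an open set -/
theorem exists_pd (g : B → A) {f : A → B} {s : Set A} (hs : IsOpen s)
    (hf : ∀ x ∈ s, IsLocalDiffeomorphAt IA IB ∞ f x) (hi : InjOn f s) :
    ∃ Φ : PartialDiffeomorph IA IB A B ∞, Φ.source = s ∧ Φ.target = f '' s ∧ ∀ x, Φ x = f x := by
  classical
  let k : B → A := fun y => if h : y ∈ f '' s then h.choose else g y
  have k1 : ∀ x ∈ s, k (f x) = x := fun x hx => by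
    have h : f x ∈ f '' s := mem_image_of_mem f hx
    exact hi (by rw [show k (f x) = h.choose from dif_pos h]; exact h.choose_spec.1) hx
      (by rw [show k (f x) = h.choose from dif_pos h]; exact h.choose_spec.2)
  have ho : IsOE IA IB fun x : (⟨s, hs⟩ : TopologicalSpace.Opens A) => f x :=
    ⟨fun x y e => Subtype.ext (hi x.2 y.2 e), fun x => Glue52.ld_restrict (hf x x.2)⟩
  have hr : range (fun x : (⟨s, hs⟩ : TopologicalSpace.Opens A) => f x) = f '' s :=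
    (image_eq_range f s).symm
  refine ⟨⟨⟨f, k, s, f '' s, mapsTo_image f s, ?_, k1, ?_⟩, hs, hr ▸ ho.isOpen_range,
    fun x hx => (hf x hx).contMDiffAt.contMDiffWithinAt, ?_⟩, rfl, rfl, fun _ => rfl⟩
  · rintro _ ⟨x, hx, rfl⟩
    rwa [k1 x hx]
  · rintro _ ⟨x, hx, rfl⟩
    rw [k1 x hx]
  · have := ho.contMDiffOn_range (g := k) (contMDiff_subtype_val.congr fun x => k1 x x.2)
    rwa [hr] at this

end pd

variable {Y Y' Y'' : CM 3} {R : CM 2} {b : R × ℝ → Y} {b' : R × ℝ → Y'} {b'' : R × ℝ → Y''}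

/-- the track of a smooth family of diffeomorphisms -/
theorem exists_track {φ : ℝ → R → R} (hs : ContMDiff (IR 2) (𝓡 2) ∞ fun p : R × ℝ => φ p.2 p.1)
    (hb : ∀ t, Bijective (φ t)) (hl : ∀ t, IsLocalDiffeomorph (𝓡 2) (𝓡 2) ∞ (φ t)) :
    ∃ F : (R × ℝ) ≃ₘ^∞⟮IR 2, IR 2⟯ (R × ℝ), ∀ p, F p = (φ p.2 p.1, p.2) := by
  have h1 : ContMDiff (IR 2) (IR 2) ∞ fun p : R × ℝ => (φ p.2 p.1, p.2) := hs.prodMk contMDiff_snd
  have h2 : IsOE (IR 2) (IR 2) fun p : R × ℝ => (φ p.2 p.1, p.2) := by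
    refine ⟨fun p q e => ?_, fun p => Glue52.ld_of_injective_mfderiv rfl isOpen_univ (mem_univ p)
      h1.contMDiffOn ((injective_iff_map_eq_zero _).2 fun v hv => ?_)⟩
    · obtain ⟨e1, e2⟩ := Prod.ext_iff.1 e
      dsimp only at e1 e2
      rw [e2] at e1
      exact Prod.ext ((hb _).1 e1) e2
    · have d1 := (hs p).mdifferentiableAt (by simp)
      rw [mfderiv_prodMk d1 mdifferentiableAt_snd, mfderiv_snd] at hv
      obtain ⟨e1, e2⟩ := Prod.ext_iff.1 hv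
      have e3 : v.2 = 0 := e2
      have e4 : mfderiv (𝓡 2) (𝓡 2) (φ p.2) p.1 v.1 = 0 := by
        have d2 : MDifferentiableAt (𝓡 2) (IR 2) (fun x : R => (x, p.2)) p.1 :=
          mdifferentiableAt_id.prodMk mdifferentiableAt_const
        have := mfderiv_comp p.1 (g := fun q : R × ℝ => φ q.2 q.1) d1 d2
        rw [show φ p.2 = (fun q : R × ℝ => φ q.2 q.1) ∘ fun x : R => (x, p.2) from rfl, this,
          mfderiv_prod_left]
        have e5 : ((v.1, 0) : TangentSpace (IR 2) p) = v := Prod.ext rfl e3.symm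
        exact (congrArg (mfderiv (IR 2) (𝓡 2) (fun q : R × ℝ => φ q.2 q.1) p) e5).trans e1
      exact Prod.ext (((hl p.2 p.1).mfderivToContinuousLinearEquiv (by simp)).injective
        (e4.trans (map_zero _).symm)) e3
  refine ⟨h2.diffeo fun q => ?_, fun _ => rfl⟩
  obtain ⟨x, hx⟩ := (hb q.2).2 q.1
  exact ⟨(x, q.2), Prod.ext hx rfl⟩

namespace Rg

section

variable {h : R → R} (G : Rg b h b')

theorem b_mem {p : R × ℝ} : b p ∈ G.φ.source ↔ p.2 ≠ 0 := by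
  rw [G.src, mem_compl_iff, mem_slab G.o]; rfl

theorem b'_mem {p : R × ℝ} : b' p ∈ G.φ.target ↔ p.2 ≠ 0 := by
  rw [G.tgt, mem_compl_iff, mem_slab G.o']; rfl

theorem mem_of_notMem {s : Set ℝ} (h0 : (0 : ℝ) ∈ s) {y : Y} (hy : y ∉ slab b s) : y ∈ G.φ.source :=
  G.src ▸ fun h1 => hy (slab_mono b (singleton_subset_iff.2 h0) h1)

theorem exists_eq {p : R × ℝ} (hp : p.2 ≠ 0) : ∃ x, G.φ (b p) = b' (x, p.2) :=
  hp.lt_or_gt.elim (fun h => ⟨_, G.lo p h⟩) fun h => ⟨_, G.hi p h⟩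

end

variable {h h' : R ≃ₘ^∞⟮𝓡 2, 𝓡 2⟯ R} (G : Rg b h b')

/-- the inverse regluing -/
def symm : Rg b' h.symm b where
  o := G.o'
  o' := G.o
  φ := G.φ.symm
  src := G.tgt
  tgt := G.src
  lo p hp := by rw [← G.lo p hp]; exact G.φ.left_inv (G.b_mem.2 hp.ne)
  hi p hp := by
    have := G.hi (px h.symm p) hp
    rw [show px h (px h.symm p) = p from Prod.ext (h.apply_symm_apply _) rfl] at this
    rw [← this]
    exact G.φ.left_inv (G.b_mem.2 hp.ne')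

theorem mem_slab {s : Set ℝ} {y : Y} (hy : y ∈ G.φ.source) : G.φ y ∈ slab b' s ↔ y ∈ slab b s := by
  constructor
  · rintro ⟨p, hp, e⟩
    obtain ⟨x, e1⟩ := G.symm.exists_eq (G.b'_mem.1 (e ▸ G.φ.map_source hy))
    rw [e] at e1
    exact ⟨(x, p.2), ⟨mem_univ _, hp.2⟩, e1.symm.trans (G.φ.left_inv hy)⟩
  · rintro ⟨p, hp, rfl⟩
    obtain ⟨x, e1⟩ := G.exists_eq (G.b_mem.1 hy)
    exact ⟨(x, p.2), ⟨mem_univ _, hp.2⟩, e1.symm⟩

/-- the composition of two regluings -/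
def trans (G' : Rg b' h' b'') : Rg b (h.trans h') b'' where
  o := G.o
  o' := G'.o'
  φ := G.φ.trans G'.φ
  src := by
    refine Eq.trans (inter_eq_left.2 fun y hy => ?_) G.src
    exact (G'.src.trans G.tgt.symm) ▸ G.φ.map_source hy
  tgt := by
    refine Eq.trans (inter_eq_left.2 fun y hy => ?_) G'.tgt
    exact (G.tgt.trans G'.src.symm) ▸ G'.φ.map_target hy
  lo p hp := (congrArg G'.φ (G.lo p hp)).trans (G'.lo p hp)
  hi p hp := (congrArg G'.φ (G.hi p hp)).trans (G'.hi (px h p) hp)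

/-- change of the name of the gluing map -/
def cast {k : R → R} (e : ∀ x, h x = k x) : Rg b k b' :=
  ⟨G.o, G.o', G.φ, G.src, G.tgt, G.lo, fun p hp => (G.hi p hp).trans (by rw [px, px, e])⟩

/-- a regluing by a product is the composition of two regluings -/
theorem exists_trans (G : Rg b (h.trans h') b'') : ∃ (Y' : CM 3) (b' : R × ℝ → Y')
    (G₁ : Rg b h b') (G₂ : Rg b' h' b''), ∀ y ∈ G.φ.source, G₂.φ (G₁.φ y) = G.φ y := by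
  obtain ⟨Y', b', ⟨G₁⟩⟩ := rgStmt Y R b h G.o
  refine ⟨Y', b', G₁, (G₁.symm.trans G).cast fun x => by simp, fun y hy => ?_⟩
  exact congrArg G.φ (G₁.φ.left_inv ((G.src.trans G₁.src.symm) ▸ hy))

/-- a regluing by the end of an isotopy does not change the manifold -/
theorem exists_iso (F : (R × ℝ) ≃ₘ^∞⟮IR 2, IR 2⟯ (R × ℝ)) {α β : ℝ} (hα : α ≤ 0) (hβ : 0 ≤ β)
    (h0 : ∀ p, (F p).2 = p.2) (h1 : ∀ p : R × ℝ, p.2 < α → F p = p)
    (h2 : ∀ p : R × ℝ, β < p.2 → F p = px h p) : ∃ Ψ : Y ≃ₘ^∞⟮𝓡 3, 𝓡 3⟯ Y',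
      (∀ p, Ψ (b p) = b' (F p)) ∧ ∀ y ∉ slab b (Icc α β), Ψ y = G.φ y := by
  have h3 : (0 : ℝ) ∈ Icc α β := ⟨hα, hβ⟩
  let U : TopologicalSpace.Opens Y := ⟨_, (isClosed_slab G.o (isCompact_Icc (a := α) (b := β))).isOpen_compl⟩
  have hU : ∀ y : U, (y : Y) ∈ G.φ.source := fun y => G.mem_of_notMem h3 y.2
  have key : ∀ p : R × ℝ, p.2 ∉ Icc α β → G.φ (b p) = b' (F p) := fun p hp => by
    rcases not_and_or.1 hp with h | h
    · rw [h1 p (not_le.1 h), G.lo p ((not_le.1 h).trans_le hα)]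
    · rw [h2 p (not_le.1 h), G.hi p (hβ.trans_lt (not_le.1 h))]
  refine (fun ⟨Ψ, e1, e2⟩ => ⟨Ψ, e1, fun y hy => e2 ⟨y, hy⟩⟩)
    (exists_diffeo_of_two G.o (isOE_val U) (G.o'.comp (IsOE.of_diffeo F))
    ((isOE_val U).of_pd G.φ hU) (fun p q => ⟨fun e => ?_, fun e => ?_⟩) (fun y => ?_) fun y => ?_)
  · rw [comp_apply, comp_apply, ← e]
    exact (key p fun hp => q.2 (e ▸ (Sep15.mem_slab G.o).2 hp)).symm
  · have h4 : p.2 ∉ Icc α β := fun hp => q.2 ((G.mem_slab (hU q)).1 (by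
      rw [← show b' (F p) = G.φ q from e, Sep15.mem_slab G.o', h0 p]; exact hp))
    exact G.φ.injOn (G.b_mem.2 fun h5 => h4 (h5 ▸ h3)) (hU q) ((key p h4).trans e)
  · by_cases hy : y ∈ slab b (Icc α β)
    exacts [.inl (slab_subset _ _ hy), .inr ⟨⟨y, hy⟩, rfl⟩]
  · by_cases hy : y ∈ slab b' (Icc α β)
    · obtain ⟨p, -, rfl⟩ := hy
      exact .inl ⟨F.symm p, by simp⟩
    · have h4 := G.symm.mem_of_notMem h3 hy
      exact .inr ⟨⟨G.φ.symm y, fun h5 => hy ((G.symm.mem_slab h4).1 h5)⟩, G.φ.right_inv h4⟩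

/-- uniqueness of the reglued manifold -/
theorem exists_diffeo (G' : Rg b h b'') : ∃ Ψ : Y' ≃ₘ^∞⟮𝓡 3, 𝓡 3⟯ Y'',
    (∀ p, Ψ (b' p) = b'' p) ∧ ∀ y ∈ G.φ.source, Ψ (G.φ y) = G'.φ y := by
  obtain ⟨Ψ, e1, e2⟩ := ((G.symm.trans G').cast (k := Diffeomorph.refl (𝓡 2) R ∞)
    fun x => by simp).exists_iso (Diffeomorph.refl _ _ _) le_rfl le_rfl (fun _ => rfl)
    (fun _ _ => rfl) fun _ _ => rfl
  refine ⟨Ψ, e1, fun y hy => (e2 _ ?_).trans (congrArg G'.φ (G.φ.left_inv hy))⟩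
  rw [Icc_self]
  exact (G.tgt ▸ G.φ.map_source hy : _ ∈ (slab b' {0})ᶜ)

/-- transport by diffeomorphisms of the two manifolds -/
def map {Z Z' : CM 3} (f : Y ≃ₘ^∞⟮𝓡 3, 𝓡 3⟯ Z) (f' : Y' ≃ₘ^∞⟮𝓡 3, 𝓡 3⟯ Z') :
    Rg (f ∘ b) h (f' ∘ b') where
  o := (IsOE.of_diffeo f).comp G.o
  o' := (IsOE.of_diffeo f').comp G.o'
  φ := (f.symm.toPartialDiffeomorph.trans G.φ).trans f'.toPartialDiffeomorph
  src := by
    ext y
    change (y ∈ univ ∧ f.symm y ∈ G.φ.source) ∧ _ ∈ univ ↔ _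
    obtain ⟨x, rfl⟩ := f.surjective y
    rw [G.src, slab, slab, image_comp]
    simp only [mem_univ, true_and, and_true, mem_compl_iff]
    exact not_congr ((congrArg (· ∈ _) (f.symm_apply_apply x)).to_iff.trans
      f.injective.mem_set_image.symm)
  tgt := by
    ext y
    change y ∈ univ ∧ f'.symm y ∈ G.φ.target ∧ _ ∈ univ ↔ _
    obtain ⟨x, rfl⟩ := f'.surjective y
    rw [G.tgt, slab, slab, image_comp]
    simp only [mem_univ, true_and, and_true, mem_compl_iff]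
    exact not_congr ((congrArg (· ∈ _) (f'.symm_apply_apply x)).to_iff.trans
      f'.injective.mem_set_image.symm)
  lo p hp := congrArg f' ((congrArg G.φ (f.symm_apply_apply _)).trans (G.lo p hp))
  hi p hp := congrArg f' ((congrArg G.φ (f.symm_apply_apply _)).trans (G.hi p hp))

end Rg

/-! ### a commutator is two exchanges -/

/-- two disjoint ranges of heights, around a negative and a positive level -/
structure Lv (σ₁ σ₂ : ℝ → ℝ) : Prop where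
  u₁ : Up σ₁ univ
  u₂ : Up σ₂ univ
  lt : ∀ v w, σ₁ v < σ₂ w
  neg : σ₁ 0 < 0
  pos : 0 < σ₂ 0

theorem exists_lv {r : ℝ} (hr : 0 < r) : ∃ σ₁ σ₂, Lv σ₁ σ₂ ∧ (∀ v, σ₁ v ∈ Ioo (-r) 0) ∧
    ∀ v, σ₂ v ∈ Ioo 0 r := by
  have h1 : Up Real.arctan univ := Up.of_hasDerivAt (fun _ _ => Real.contDiff_arctan.contDiffAt)
    (fun x _ => Real.hasDerivAt_arctan x) fun x _ => by positivity
  have hp := Real.pi_pos
  have h2 : ∀ v, r / 2 + r / Real.pi * Real.arctan v ∈ Ioo 0 r := fun v => by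
    have a := mul_lt_mul_of_pos_left (Real.arctan_lt_pi_div_two v) (div_pos hr hp)
    have b := mul_lt_mul_of_pos_left (Real.neg_pi_div_two_lt_arctan v) (div_pos hr hp)
    have c : r / Real.pi * (Real.pi / 2) = r / 2 := by field_simp
    rw [mul_neg, c] at b
    rw [c] at a
    constructor <;> linarith
  have h3 : ∀ v, -r / 2 + r / Real.pi * Real.arctan v ∈ Ioo (-r) 0 := fun v =>
    ⟨by linarith [(h2 v).1], by linarith [(h2 v).2]⟩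
  exact ⟨_, _, ⟨(Up.aff (-r / 2) (div_pos hr hp) univ).comp h1 (mapsTo_univ _ _),
    (Up.aff (r / 2) (div_pos hr hp) univ).comp h1 (mapsTo_univ _ _),
    fun v w => (h3 v).2.trans (h2 w).1, (h3 0).2, (h2 0).1⟩, h3, h2⟩

theorem Box.sub (hb : Box b) (t : R ≃ₘ^∞⟮𝓡 2, 𝓡 2⟯ R) {σ : ℝ → ℝ} (hσ : Up σ univ) :
    Box (b ∘ Prod.map t σ) := IsOE.comp hb ((IsOE.of_diffeo t).prodMap hσ.isOE)

theorem slab_sub (b : R × ℝ → Y) {t : R → R} (ht : Surjective t) (σ : ℝ → ℝ) (s : Set ℝ) :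
    slab (b ∘ Prod.map t σ) s = slab b (σ '' s) := by
  rw [slab, slab, image_comp, prodMap_image_prod, image_univ, ht.range_eq]

/-- the regluing `G` (by `h = s⁻¹ t s t⁻¹`) is the exchange `S₁` followed by the exchange `S₂` -/
structure Cm {h : R → R} (G : Rg b h b') (t s : R ≃ₘ^∞⟮𝓡 2, 𝓡 2⟯ R) (σ₁ σ₂ : ℝ → ℝ) where
  lv : Lv σ₁ σ₂
  eq : ∀ x, s (h (t x)) = t (s x)
  Y₁ : CM 3
  c₁ : R × ℝ → Y₁
  c₂ : R × ℝ → Y₁
  S₁ : Sw (b ∘ Prod.map id σ₁) (b ∘ Prod.map t σ₂) c₁ c₂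
  S₂ : Sw c₁ (c₂ ∘ px s) (b' ∘ Prod.map id σ₁) (b' ∘ Prod.map (fun x => h (t x)) σ₂)
  out : ∀ y ∉ slab b (Icc (σ₁ 0) (σ₂ 0)), S₂.φ (S₁.φ y) = G.φ y
  mid : ∀ p : R × ℝ, p.2 ∈ Ioo (σ₁ 0) (σ₂ 0) → S₂.φ (S₁.φ (b p)) = b' (px s.symm p)

theorem exists_cm {h : R ≃ₘ^∞⟮𝓡 2, 𝓡 2⟯ R} (G : Rg b h b') (t s : R ≃ₘ^∞⟮𝓡 2, 𝓡 2⟯ R)
    (e : ∀ x, s (h (t x)) = t (s x)) {σ₁ σ₂ : ℝ → ℝ} (L : Lv σ₁ σ₂) :
    Nonempty (Cm G t s σ₁ σ₂) := by
  classical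
  have m₁ := L.u₁.strictMono
  have m₂ := L.u₂.strictMono
  have dj : ∀ {Z : CM 3} {c : R × ℝ → Z}, Box c → ∀ (u : R → R) p q,
      (c ∘ Prod.map id σ₁) p ≠ (c ∘ Prod.map u σ₂) q := fun hc u p q e =>
    (L.lt _ _).ne (congrArg Prod.snd (hc.inj e))
  obtain ⟨Y₁, c₁, c₂, ⟨S₁⟩⟩ := swStmt Y R (b ∘ Prod.map id σ₁) (b ∘ Prod.map t σ₂)
    (G.o.sub (Diffeomorph.refl _ _ _) L.u₁) (G.o.sub t L.u₂) (dj G.o t)
  set α := σ₁ 0
  set β := σ₂ 0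
  have h0 : (0 : ℝ) ∈ Icc α β := ⟨L.neg.le, L.pos.le⟩
  have sl : ∀ {Z : CM 3} (c : R × ℝ → Z) {u : R → R}, Surjective u →
      slab (c ∘ Prod.map id σ₁) {0} ∪ slab (c ∘ Prod.map u σ₂) {0} = slab c {α, β} := by
    intro Z c u hu
    rw [slab_sub c surjective_id, slab_sub c hu, image_singleton, image_singleton, slab, slab, slab,
      ← image_union, ← prod_union, singleton_union]
  have split : ∀ {Z : CM 3} {c : R × ℝ → Z} {y : Z}, y ∉ slab c {α, β} →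
      y ∈ slab c (Ioo α β) ∨ y ∉ slab c (Icc α β) := by
    intro Z c y hy
    refine or_iff_not_imp_right.2 fun h1 => ?_
    obtain ⟨p, hp, rfl⟩ := not_not.1 h1
    exact ⟨p, ⟨mem_univ _, lt_of_le_of_ne hp.2.1 fun h2 => hy ⟨p, ⟨mem_univ _, .inl h2.symm⟩, rfl⟩,
      lt_of_le_of_ne hp.2.2 fun h2 => hy ⟨p, ⟨mem_univ _, .inr h2⟩, rfl⟩⟩, rfl⟩
  have sub : ({α, β} : Set ℝ) ⊆ Icc α β := pair_subset (left_mem_Icc.2 (h0.1.trans h0.2))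
    (right_mem_Icc.2 (h0.1.trans h0.2))
  let ψ : Y → Y' := extend b (fun p => if p.2 ∈ Ioo α β then b' (px s.symm p) else G.φ (b p)) G.φ
  have ψ1 : ∀ p : R × ℝ, p.2 ∈ Ioo α β → ψ (b p) = b' (px s.symm p) := fun p hp =>
    (G.o.inj.extend_apply _ _ p).trans (if_pos hp)
  have ψ2 : ∀ y ∉ slab b (Icc α β), ψ y = G.φ y := fun y hy => by
    by_cases h1 : ∃ p, b p = y
    · obtain ⟨p, rfl⟩ := h1
      exact (G.o.inj.extend_apply _ _ p).trans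
        (if_neg fun hp => hy ((mem_slab G.o).2 (Ioo_subset_Icc_self hp)))
    · exact extend_apply' _ _ _ h1
  have ψ3 : ∀ y ∉ slab b (Icc α β), ψ y ∉ slab b' (Icc α β) := fun y hy h1 =>
    hy ((G.mem_slab (G.mem_of_notMem h0 hy)).1 (ψ2 y hy ▸ h1))
  obtain ⟨Ψ, e1, e2, e3⟩ := exists_pd (IA := 𝓡 3) (IB := 𝓡 3) G.φ.symm (f := ψ)
    (isClosed_slab G.o (toFinite {α, β}).isCompact).isOpen_compl
    (fun y hy => by
      rcases split hy with ⟨p, hp, rfl⟩ | h1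
      · refine ld_of_comp (G.o.loc p) (ld_congr ((G.o'.px s.symm).loc p) ?_)
        filter_upwards [(isOpen_Ioo.preimage continuous_snd).mem_nhds hp.2] with q hq using ψ1 q hq
      · refine ld_congr (G.φ.isLocalDiffeomorphAt _ _ _ (G.mem_of_notMem h0 h1)) ?_
        filter_upwards [(isClosed_slab G.o isCompact_Icc).isOpen_compl.mem_nhds h1] with z hz
          using ψ2 z hz)
    (fun y hy z hz e1 => by
      rcases split hy with ⟨p, hp, rfl⟩ | h1 <;> rcases split hz with ⟨q, hq, rfl⟩ | h2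
      · rw [ψ1 p hp.2, ψ1 q hq.2] at e1
        rw [(G.o'.px s.symm).inj e1]
      · exact (ψ3 z h2 (by rw [← e1, ψ1 p hp.2, mem_slab G.o']; exact Ioo_subset_Icc_self hp.2)).elim
      · exact (ψ3 y h1 (by rw [e1, ψ1 q hq.2, mem_slab G.o']; exact Ioo_subset_Icc_self hq.2)).elim
      · rw [ψ2 y h1, ψ2 z h2] at e1
        exact G.φ.injOn (G.mem_of_notMem h0 h1) (G.mem_of_notMem h0 h2) e1)
  have e4 : S₁.φ.source = Ψ.source := by rw [S₁.src, e1, sl b (u := t) t.surjective]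
  have e5 : Ψ.target = (slab b' {α, β})ᶜ := by
    rw [e2]
    refine Subset.antisymm ?_ fun y hy => ?_
    · rintro _ ⟨y, hy, rfl⟩ h1
      rcases split hy with ⟨p, hp, rfl⟩ | h2
      · rw [ψ1 p hp.2, mem_slab G.o'] at h1
        rcases h1 with h1 | h1
        exacts [hp.2.1.ne' h1, hp.2.2.ne h1]
      · exact ψ3 y h2 (slab_mono _ sub h1)
    · rcases split hy with ⟨p, hp, rfl⟩ | h2
      · refine ⟨b (px s p), fun h1 => hy ((mem_slab G.o').2 ((mem_slab G.o (p := px s p)).1 h1)), ?_⟩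
        rw [ψ1 (px s p) hp.2]
        exact congrArg b' (Prod.ext (s.symm_apply_apply _) rfl)
      · have h3 := G.symm.mem_of_notMem h0 h2
        have h4 : G.φ.symm y ∉ slab b (Icc α β) := fun h5 => h2 ((G.symm.mem_slab h3).1 h5)
        exact ⟨_, fun h5 => h4 (slab_mono _ sub h5), (ψ2 _ h4).trans (G.φ.right_inv h3)⟩
  have k : ∀ y ∈ S₁.φ.source, (S₁.φ.symm.trans Ψ) (S₁.φ y) = ψ y := fun y hy =>
    (e3 _).trans (congrArg ψ (S₁.φ.left_inv hy))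
  have lo : ∀ x, ∀ v < α, ψ (b (x, v)) = b' (x, v) := fun x v hv =>
    (ψ2 _ fun h1 => hv.not_ge ((mem_slab G.o).1 h1).1).trans (G.lo _ (hv.trans L.neg))
  have hi : ∀ x v, β < v → ψ (b (x, v)) = b' (h x, v) := fun x v hv =>
    (ψ2 _ fun h1 => hv.not_ge ((mem_slab G.o).1 h1).2).trans (G.hi _ (L.pos.trans hv))
  have ht : Surjective fun x => h (t x) := h.surjective.comp t.surjective
  refine ⟨⟨L, e, Y₁, c₁, c₂, S₁, ⟨S₁.o₁', S₁.o₂'.px s, fun p q => S₁.dj' _ _,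
    G.o'.sub (Diffeomorph.refl _ _ _) L.u₁, G.o'.sub (t.trans h) L.u₂, dj G.o' _,
    S₁.φ.symm.trans Ψ, ?_, ?_, fun p hp => ?_, fun p hp => ?_, fun p hp => ?_, fun p hp => ?_⟩,
    fun y hy => ?_, fun p hp => ?_⟩⟩
  · rw [slab_px c₂ (show Surjective (s : R → R) from s.surjective), ← S₁.tgt]
    exact inter_eq_left.2 fun y hy => e4 ▸ S₁.φ.map_target hy
  · rw [sl b' ht, ← e5]
    exact inter_eq_left.2 fun y hy => (e4.symm ▸ Ψ.map_target hy :)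
  · rw [← S₁.lo₁ p hp, k _ (S₁.b₁_mem.2 hp.ne)]
    exact lo _ _ (m₁ hp)
  · rw [comp_apply, ← S₁.hi₁ (px s p) hp, k _ ((S₁.b₁_mem (p := px s p)).2 hp.ne')]
    exact (ψ1 _ ⟨m₁ hp, L.lt _ _⟩).trans (congrArg b' (Prod.ext (s.symm_apply_apply _) rfl))
  · rw [comp_apply, ← S₁.lo₂ (px s p) hp, k _ ((S₁.b₂_mem (p := px s p)).2 hp.ne)]
    refine (ψ1 _ ⟨L.lt _ _, m₂ hp⟩).trans (congrArg b' (Prod.ext ?_ rfl))
    exact (congrArg s.symm (e p.1).symm).trans (s.symm_apply_apply _)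
  · rw [← S₁.hi₂ p hp, k _ (S₁.b₂_mem.2 hp.ne')]
    exact hi _ _ (m₂ hp)
  · exact (k y (e4.trans e1 ▸ fun h1 => hy (slab_mono _ sub h1))).trans (ψ2 y hy)
  · refine (k _ (e4.trans e1 ▸ fun h1 => ?_)).trans (ψ1 p hp)
    rcases (mem_slab G.o).1 h1 with h1 | h1
    exacts [hp.1.ne' h1, hp.2.ne h1]

end Crest.Agent.X212.Sep15
end
end

-- ▼ part X212/Bb31/Stm

/-!
# X212/Bb31/Stm (helper31): the statements exported to the tower

`Clo P` (on `Sep15.Cm`), `Cap P Y o A`, `Mt` (matching data), `RegStmt`, `KillStmt`, `ReStmt`.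
-/

set_option autoImplicit false
set_option linter.unusedSectionVars false

open Set Filter Topology Function
open scoped ContDiff Manifold
open Crest.Agent.R208.F Crest.Agent.X212.Dr59 Crest.Agent.X212.Int54 Crest.Agent.X212.Cyl58
open Crest.Agent.X212.Sep15 (EE IR IC CM End Box slab px Sw Op Rg Bs Jo)
open Crest.Agent.X212.Sym24 (pu)

noncomputable section

namespace Crest.Agent.X212.Bb31

variable {Y Y' : CM 3} {R : CM 2}

/-- diffeomorphisms of a surface -/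
abbrev Df (R : CM 2) : Type := R ≃ₘ^∞⟮𝓡 2, 𝓡 2⟯ R

/-- orientation preserving -/
def Pos (o : Fm 2 R) (f : R → R) : Prop := SameOn (pm (𝓡 2) (𝓡 2) f o) o univ

/-- two disjoint increasing parametrisations of heights -/
structure Hs (σ₁ σ₂ : ℝ → ℝ) : Prop where
  o₁ : IsOE 𝓘(ℝ, ℝ) 𝓘(ℝ, ℝ) σ₁
  o₂ : IsOE 𝓘(ℝ, ℝ) 𝓘(ℝ, ℝ) σ₂
  m₁ : StrictMono σ₁
  m₂ : StrictMono σ₂
  neg : ∀ y, σ₁ y < 0
  pos : ∀ y, 0 < σ₂ y

/-- two exchanges of tops which realise the regluing by the commutator `s⁻¹ t s t⁻¹` -/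
structure Cm {b : R × ℝ → Y} {h : R → R} {b' : R × ℝ → Y'} (G : Rg b h b') (s t : Df R)
    (σ₁ σ₂ : ℝ → ℝ) where
  Y₁ : CM 3
  c₁ : R × ℝ → Y₁
  c₂ : R × ℝ → Y₁
  S₁ : Sw (b ∘ Prod.map id σ₁) (b ∘ Prod.map t σ₂) c₁ c₂
  S₂ : Sw c₁ (c₂ ∘ px s) (b' ∘ Prod.map id σ₁) (b' ∘ Prod.map (s.symm ∘ t ∘ s) σ₂)
  out : ∀ p ∉ slab b (Icc (σ₁ 0) (σ₂ 0)), S₁.φ p ∈ S₂.φ.source ∧ S₂.φ (S₁.φ p) = G.φ p
  mid : ∀ x, ∀ y ∈ Ioo (σ₁ 0) (σ₂ 0),
    S₁.φ (b (x, y)) ∈ S₂.φ.source ∧ S₂.φ (S₁.φ (b (x, y))) = b' (s.symm x, y)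

/-- `COMM` (helper15) -/
def CmStmt : Prop := ∀ (Y Y' : CM 3) (R : CM 2) (b : R × ℝ → Y) (h : R → R) (b' : R × ℝ → Y')
  (G : Rg b h b') (s t : Df R) (σ₁ σ₂ : ℝ → ℝ), (∀ x, h x = s.symm (t (s (t.symm x)))) → Hs σ₁ σ₂ →
  Nonempty (Cm G s t σ₁ σ₂)

/-- an extra property of caps which survives the two surgeries of a commutator and gives `EXR` -/
structure Clo (P : ∀ Y : CM 3, End Y → Prop) : Prop where
  cm : ∀ (Y Y' : CM 3) (R : CM 2) (oR : Fm 2 R) (b : R × ℝ → Y) (h : R → R) (b' : R × ℝ → Y')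
    (G : Rg b h b') (s t : Df R) (σ₁ σ₂ : ℝ → ℝ) (M : Sep15.Cm G t s σ₁ σ₂) (C : End Y)
    (C₁ : End M.Y₁) (C₂ : End Y'), PreconnectedSpace R → Ori (𝓡 2) oR → Pos oR s → Pos oR t →
    Op M.S₁ C C₁ → Op M.S₂ C₁ C₂ → P Y C → P Y' C₂
  re : ∀ (Y Y' : CM 3) (C : End Y) (f : Y' ≃ₘ^∞⟮𝓡 3, 𝓡 3⟯ Y), P Y C → P Y' (C.re f)
  exr : ∀ (Y : CM 3) (C : End Y), P Y C → EXR C

/-- there is a universal cap with the extra property -/
def Cap (P : ∀ Y : CM 3, End Y → Prop) (Y : CM 3) (o : Fm 3 Y) (A : Set (Fm 3 Y)) : Prop :=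
  ∃ C : End Y, P Y C ∧ OC C o A

/-- the data on `Y` and `Y'` correspond under a regluing -/
structure Mt {b : R × ℝ → Y} {h : R → R} {b' : R × ℝ → Y'} (G : Rg b h b') (oR : Fm 2 R)
    (o β : Fm 3 Y) (U : Set Y) (τ : Fm 3 Y) (o' β' : Fm 3 Y') (U' : Set Y') (τ' : Fm 3 Y') :
    Prop where
  hR : Ori (𝓡 2) oR
  ho : Ori (𝓡 3) o
  ho' : Ori (𝓡 3) o'
  cy : Cy oR o b
  ori : SameOn (pm (𝓡 3) (𝓡 3) G.φ o') o G.φ.source
  sub : slab b (Ioo (-1) 1) ⊆ U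
  sub' : slab b' (Ioo (-1) 1) ⊆ U'
  dy : Dy b τ (Ioo (-1) 1)
  dy' : Dy b' τ' (Ioo (-1) 1)
  mem : ∀ p ∉ slab b (Ioo (-1) 1), p ∈ U ↔ G.φ p ∈ U'
  be : ∀ p ∉ slab b (Icc (-2⁻¹) 2⁻¹), pm (𝓡 3) (𝓡 3) G.φ β' p = β p
  ta : ∀ p ∈ U, p ∉ slab b (Ioo (-1) 1) → ∃ f > (0 : ℝ), pm (𝓡 3) (𝓡 3) G.φ τ' p = f • τ p

/-- `REG*` -/
def RegStmt : Prop := ∀ (P : ∀ Y : CM 3, End Y → Prop), Clo P → ∀ (Y Y' : CM 3) (R : CM 2)
  (b : R × ℝ → Y) (h : R → R) (b' : R × ℝ → Y') (G : Rg b h b') (s t : Df R) (oR : Fm 2 R)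
  (o β : Fm 3 Y) (U : Set Y) (τ : Fm 3 Y) (o' β' : Fm 3 Y') (U' : Set Y') (τ' : Fm 3 Y'),
  PreconnectedSpace R → Pos oR s → Pos oR t → (∀ x, h x = s.symm (t (s (t.symm x)))) →
  Mt G oR o β U τ o' β' U' τ' → Cap P Y o (AA o β U τ) → Cap P Y' o' (AA o' β' U' τ')

/-- `REG*`, relational form -/
def RegOc : Prop := ∀ (Y Y' : CM 3) (R : CM 2) (b : R × ℝ → Y) (h : R → R) (b' : R × ℝ → Y')
  (G : Rg b h b') (s t : Df R) (oR : Fm 2 R) (o β : Fm 3 Y) (U : Set Y) (τ : Fm 3 Y)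
  (o' β' : Fm 3 Y') (U' : Set Y') (τ' : Fm 3 Y') (σ₁ σ₂ : ℝ → ℝ) (M : Sep15.Cm G t s σ₁ σ₂)
  (C : End Y) (C₁ : End M.Y₁) (C₂ : End Y'), Pos oR s → Pos oR t →
  (∀ y, σ₁ y ∈ Ioo (-2⁻¹ : ℝ) 2⁻¹) → (∀ y, σ₂ y ∈ Ioo (-2⁻¹ : ℝ) 2⁻¹) →
  Mt G oR o β U τ o' β' U' τ' → Op M.S₁ C C₁ → Op M.S₂ C₁ C₂ →
  OC C o (AA o β U τ) → OC C₂ o' (AA o' β' U' τ')

/-- `REG*` with two predicates -/
def Reg2Stmt : Prop := ∀ (P Q : ∀ Y : CM 3, End Y → Prop) (Y Y' : CM 3) (R : CM 2)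
  (b : R × ℝ → Y) (h : R → R) (b' : R × ℝ → Y') (G : Rg b h b') (s t : Df R) (oR : Fm 2 R)
  (o β : Fm 3 Y) (U : Set Y) (τ : Fm 3 Y) (o' β' : Fm 3 Y') (U' : Set Y') (τ' : Fm 3 Y'),
  (∀ (σ₁ σ₂ : ℝ → ℝ) (M : Sep15.Cm G t s σ₁ σ₂) (C : End Y) (C₁ : End M.Y₁) (C₂ : End Y'),
    Op M.S₁ C C₁ → Op M.S₂ C₁ C₂ → P Y C → Q Y' C₂) →
  Pos oR s → Pos oR t → (∀ x, h x = s.symm (t (s (t.symm x)))) →
  Mt G oR o β U τ o' β' U' τ' → Cap P Y o (AA o β U τ) → Cap Q Y' o' (AA o' β' U' τ')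

/-- `HEL*` and `KILL*` -/
def KillStmt : Prop := ∀ (P : ∀ Y : CM 3, End Y → Prop), Clo P → ∀ (Y : CM 3) (R : CM 2)
  (o β τ τ' : Fm 3 Y) (U U' : Set Y) (oR ν θ θ₁ : Fm 2 R) (b : R × ℝ → Y) (k : R × ℝ → ℝ)
  (t : Df R), PreconnectedSpace R → Ori (𝓡 3) o → Ori (𝓡 2) oR → Box b → Cy oR o b →
  β ∈ AA o β U τ → Sm (𝓡 3) U τ → slab b (Icc (-1) 1) ⊆ U → U' ⊆ U →
  slab b (Ioo (-1) 1) ⊆ U' → Dy b τ' (Ioo (-1) 1) →
  (∀ p ∈ U', p ∉ slab b (Ioo (-1) 1) → ∃ f > (0 : ℝ), τ' p = f • τ p) →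
  Dg 1 univ ν → Cl (𝓡 2) 1 univ θ → (∀ x, ν x ≠ 0 → 0 < rat oR (θ * ν) x) → (∀ p, 0 < k p) →
  (∀ x, ∀ y ∈ Ioo (-1 : ℝ) 1, pm (IR 2) (𝓡 3) b τ (x, y) =
    k (x, y) • Sym24.dT (EE 2) + pu ν (x, y)) →
  Pos oR t → Cl (𝓡 2) 1 univ θ₁ → Ex (𝓡 2) univ (θ - (θ₁ - pm (𝓡 2) (𝓡 2) t θ₁)) →
  Cap P Y o (AA o β U τ) → Cap P Y o (AA o β U' τ')

/-- transport along a diffeomorphism -/
def ReStmt : Prop := ∀ (P : ∀ Y : CM 3, End Y → Prop), Clo P → ∀ (Y Y' : CM 3)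
  (f : Y' ≃ₘ^∞⟮𝓡 3, 𝓡 3⟯ Y) (o : Fm 3 Y) (o' : Fm 3 Y') (A : Set (Fm 3 Y)) (A' : Set (Fm 3 Y')),
  SameOn (pm (𝓡 3) (𝓡 3) f o) o' univ → (∀ a ∈ A', pm (𝓡 3) (𝓡 3) f.symm a ∈ A) →
  Cap P Y o A → Cap P Y' o' A'

end Crest.Agent.X212.Bb31
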