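import Crest.Agent.X212.Bb31.Fin
import Crest.Agent.X212.Sep15.Op
import Crest.Agent.X212.Orx52.Sw
import Crest.Agent.X212.Bb31.Stm
import Crest.Agent.X212.Sym24.Main

-- ▼ part X212/Bb31/Nrm
section

/-!
# X212/Bb31/Nrm (helper31): normalisation of forms and the step `Stp.op`

`exists_vcol` (vertical collapse), `Stp.norm`, `Tr`, `Dt`, `Stp.op`.
-/

set_option autoImplicit false
set_option linter.unusedSectionVars false

open Set Filter Topology Function Module Metric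
open scoped ContDiff Manifold
open Crest.Agent.R208 Crest.Agent.R208.F Crest.Agent.R208.FI Crest.Agent.X212.Dr59
  Crest.Agent.X212.Cyl58
open Crest.Agent.X212.Int54 (tp rat Ori SameOn)
open Crest.Agent.X212.Sep15 (EE IR IC CM End Box slab)
open Crest.Agent.X212.Orx52 (oZ pr)
open Crest.Agent.X212.Sym24 (pu dt sl dT)

noncomputable section

namespace Crest.Agent.X212.Bb31

variable {Y Y' : CM 3} {R : CM 2} {κ κ' : Type}

theorem dM_off {E H M : Type*} [NormedAddCommGroup E] [NormedSpace ℝ E] [FiniteDimensional ℝ E]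
    [TopologicalSpace H] {I : ModelWithCorners ℝ E H} [I.Boundaryless] [TopologicalSpace M]
    [ChartedSpace H M] [IsManifold I ∞ M] {K : Set M} (hK : IsClosed K) {a : M → Ext E} (h : ∀ x ∉ K, a x = 0) {x : M} (hx : x ∉ K) :
    dM I a x = 0 := by
  rw [dM_congr (b := 0) (eventually_of_mem (hK.isOpen_compl.mem_nhds hx) h), dM_zero]
  rfl

theorem F1.z2 {m : ℕ} {X : Type} [TopologicalSpace X] [ChartedSpace (EE m) X]
    [IsManifold (𝓡 m) ∞ X] {a : Fm m X} (h : F1 a) : Z2 (dM (𝓡 m) a) :=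
  ⟨h.sm.dM, h.dg.dM isOpen_univ, fun x _ => (h.sm x trivial).dd⟩

theorem F1.add {m : ℕ} {X : Type} [TopologicalSpace X] [ChartedSpace (EE m) X]
    [IsManifold (𝓡 m) ∞ X] {a b : Fm m X} (h : F1 a) (h' : F1 b) : F1 (a + b) := ⟨h.sm.add h'.sm, h.dg.add h'.dg⟩

theorem F1.sub {m : ℕ} {X : Type} [TopologicalSpace X] [ChartedSpace (EE m) X]
    [IsManifold (𝓡 m) ∞ X] {a b : Fm m X} (h : F1 a) (h' : F1 b) : F1 (a - b) := ⟨h.sm.sub h'.sm, h.dg.sub h'.dg⟩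

theorem pu_zero : pu (0 : Fm 3 Y) = 0 := funext fun _ => map_zero _

theorem En.dM {C : End Y} {a : Fm 4 C.X} (ha : F1 a) (h : En C.j a (0 : Fm 3 Y)) :
    En C.j (dM (𝓡 4) a) (0 : Fm 3 Y) := by
  obtain ⟨ε, hε, k⟩ := h
  refine ⟨ε, hε, fun p hp => ?_⟩
  rw [pm_dM (c := 0) (C.oe.contMDiff p) (ha.sm _ trivial) (eventually_of_mem
    ((isOpen_lt continuous_const continuous_snd).mem_nhds hp) fun q hq => by
      rw [k q hq, pu_zero]), dM_zero, pu_zero]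

theorem Gd.of_ex {C : End Y} {O : Fm 4 C.X} {ι : Type} {ζ ν : ι → Fm 4 C.X} (hν : ∀ q, F1 (ν q))
    (h0 : ∀ q, En C.j (ν q) (0 : Fm 3 Y)) (h : Gd C O fun q => ζ q + dM (𝓡 4) (ν q)) : Gd C O ζ := by
  obtain ⟨la, h1, h2, h3⟩ := h
  refine ⟨fun q => la q - ν q, fun q => (h1 q).sub (hν q), fun q => funext fun p => ?_, ?_⟩
  · obtain ⟨ε, hε, k⟩ := h0 q
    have := congrFun (h2 q) p
    rw [sl] at this ⊢
    rw [pm_sub, Pi.sub_apply, map_sub, this, k _ (neg_lt_zero.2 hε), pu_zero]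
    simp
  · have e : ∀ q, ζ q - dM (𝓡 4) (la q - ν q) = ζ q + dM (𝓡 4) (ν q) - dM (𝓡 4) (la q) := fun q =>
      funext fun x => by
        simp only [Pi.sub_apply, Pi.add_apply, dM_sub ne0 ((h1 q).sm x trivial) ((hν q).sm x trivial)]
        abel
    simpa only [e] using h3

/-! ### vertical maps, slices -/

/-- a vertical map -/
def vm (S : Y × ℝ → ℝ) (p : Y × ℝ) : Y × ℝ := (p.1, S p)

section vm

variable {S : Y × ℝ → ℝ} {a : Y × ℝ → Ext (EE 3 × ℝ)} {p : Y × ℝ}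

theorem cm_vm (hS : ContMDiff (IR 3) 𝓘(ℝ, ℝ) ∞ S) : ContMDiff (IR 3) (IR 3) ∞ (vm S) :=
  contMDiff_fst.prodMk hS

theorem pm_vm_pu (hS : ContMDiff (IR 3) 𝓘(ℝ, ℝ) ∞ S) {B : Fm 3 Y}
    (h : a (vm S p) = pu B (vm S p)) : pm (IR 3) (IR 3) (vm S) a p = pu B p := by
  rw [pm_congr_right h, ← Sym24.pm_fst (I := 𝓡 3),
    pm_comp mdifferentiableAt_fst ((cm_vm hS p).mdifferentiableAt ne0)]
  rfl

theorem pm_vm_const {s : Y → ℝ} (hs : ContMDiff (𝓡 3) 𝓘(ℝ, ℝ) ∞ s)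
    (h : ∀ᶠ q in 𝓝 p, S q = s q.1) : pm (IR 3) (IR 3) (vm S) a p =
      pu (pm (𝓡 3) (IR 3) (fun y => (y, s y)) a) p := by
  rw [← Sym24.pm_fst (I := 𝓡 3), pm_comp (g := fun y => (y, s y))
    ((contMDiff_id.prodMk hs _).mdifferentiableAt ne0) mdifferentiableAt_fst]
  exact pm_congr (h.mono fun q hq => Prod.ext rfl hq) rfl

/-- **vertical collapse** -/
theorem exists_vcol {X : Type} [TopologicalSpace X] [ChartedSpace (EE 4) X] [IsManifold (𝓡 4) ∞ X]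
    [T2Space X] {f : Y × ℝ → X} {U K : Set (Y × ℝ)} (h : OE (IR 3) (𝓡 4) U f)
    (hS : ContMDiff (IR 3) 𝓘(ℝ, ℝ) ∞ S) (hK : IsCompact K) (sK : K ⊆ U) (st : ∀ p ∉ K, S p = p.2)
    (mp : ∀ p ∈ U, ∀ θ ∈ Icc (0 : ℝ) 1, (p.1, p.2 + θ * (S p - p.2)) ∈ U) {ζ : Fm 4 X} (hζ : Z2 ζ) :
    ∃ μ : Fm 4 X, F1 μ ∧ (∀ x ∉ f '' K, μ x = 0) ∧ ∀ p ∈ U, pm (IR 3) (𝓡 4) f (ζ + dM (𝓡 4) μ) p =
      pm (IR 3) (IR 3) (vm S) (pm (IR 3) (𝓡 4) f ζ) p := by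
  obtain ⟨μ, h1, h2, h3, h4⟩ := h.exists_htpy (k := 1)
    (G := fun z => (z.1.1, z.1.2 + z.2 * (S z.1 - z.1.2)))
    ⟨fun _ _ _ _ => (contMDiff_fst.fst.prodMk (contMDiff_fst.snd.add (contMDiff_snd.mul
      ((hS.comp contMDiff_fst).sub contMDiff_fst.snd)))) _, mp⟩ (fun y _ => by simp) hK sK
    (fun y hy t => by simp [st y hy]) hζ
  refine ⟨μ, ⟨h1, h2⟩, h3, fun p hp => (h4 p hp).trans ?_⟩
  simp only [one_mul, add_sub_cancel]
  rfl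

/-- the slice over the height `y` at the level `t` -/
def s4 (b : R × ℝ → Y) (y t : ℝ) (a : Y × ℝ → Ext (EE 3 × ℝ)) : Fm 2 R :=
  pm (𝓡 2) (IR 3) (fun x => (b (x, y), t)) a

variable {b : R × ℝ → Y} {y t : ℝ} {x : R}

theorem cm_sl (hb : Box b) (y : ℝ) : ContMDiff (𝓡 2) (𝓡 3) ∞ fun x => b (x, y) :=
  hb.contMDiff.comp (contMDiff_id.prodMk contMDiff_const)

theorem cm_s4 (hb : Box b) (y t : ℝ) : ContMDiff (𝓡 2) (IR 3) ∞ fun x => (b (x, y), t) :=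
  (cm_sl hb y).prodMk contMDiff_const

theorem sl_pm (hb : Box b) (B : Fm 3 Y) :
    sl y (pm (IR 2) (𝓡 3) b B) x = pm (𝓡 2) (𝓡 3) (fun x => b (x, y)) B x := by
  rw [← Sym24.pm_inl (I := 𝓡 2)]
  exact pm_comp (f := fun x : R => (x, y)) ((hb.contMDiff _).mdifferentiableAt ne0)
    ((contMDiff_id.prodMk contMDiff_const x).mdifferentiableAt ne0)

theorem s4_pu (hb : Box b) {B : Fm 3 Y} (h : a (b (x, y), t) = pu B (b (x, y), t)) :
    s4 b y t a x = sl y (pm (IR 2) (𝓡 3) b B) x := by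
  rw [s4, pm_congr_right (f := fun x => (b (x, y), t)) h, ← Sym24.pm_fst (I := 𝓡 3), sl_pm hb]
  exact pm_comp mdifferentiableAt_fst ((cm_s4 hb y t x).mdifferentiableAt ne0)

theorem s4_vm (hb : Box b) (hS : ContMDiff (IR 3) 𝓘(ℝ, ℝ) ∞ S) {t' : ℝ}
    (h : ∀ x, S (b (x, y), t) = t') : s4 b y t (pm (IR 3) (IR 3) (vm S) a) x = s4 b y t' a x := by
  rw [s4, pm_comp ((cm_vm hS _).mdifferentiableAt ne0) ((cm_s4 hb y t x).mdifferentiableAt ne0)]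
  exact pm_congr (Eventually.of_forall fun x => Prod.ext rfl (h x)) rfl

theorem sl_graph (hb : Box b) {s : Y → ℝ} (hs : ContMDiff (𝓡 3) 𝓘(ℝ, ℝ) ∞ s)
    (h : ∀ x, s (b (x, y)) = t) :
    sl y (pm (IR 2) (𝓡 3) b (pm (𝓡 3) (IR 3) (fun p => (p, s p)) a)) x = s4 b y t a x := by
  rw [sl_pm hb, pm_comp (g := fun y => (y, s y)) ((contMDiff_id.prodMk hs _).mdifferentiableAt ne0)
    ((cm_sl hb y x).mdifferentiableAt ne0)]
  exact pm_congr (Eventually.of_forall fun x => Prod.ext rfl (h x)) rfl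

theorem sz_eq {X : Type} [TopologicalSpace X] [ChartedSpace (EE 4) X] {e : R × ℂ → X}
    (he : IsOE IC (𝓡 4) e) (hb : Box b) {f : Y × ℝ → X} {z : ℂ}
    (hf : MDifferentiableAt (IR 3) (𝓡 4) f (b (x, y), t)) (h : ∀ x, e (x, z) = f (b (x, y), t))
    (c : Fm 4 X) : sz z (pm IC (𝓡 4) e c) x = s4 b y t (pm (IR 3) (𝓡 4) f c) x := by
  rw [sz_pm ((he.contMDiff _).mdifferentiableAt ne0), s4,
    pm_comp (f := fun x => (b (x, y), t)) hf ((cm_s4 hb y t x).mdifferentiableAt ne0), funext h]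
  rfl

end vm

namespace Stp

variable {C : End Y} {C' : End Y'} {b : κ → R × ℝ → Y} {b' : κ' → R × ℝ → Y'} (S : Stp C C' b b')

theorem oj : OE (IR 3) (𝓡 4) (C.j ⁻¹' S.X₀) (S.i ∘ C.j) := S.oi.comp C.oe

theorem sz_Ω {k : κ} {z : ℂ} (hz : z ∈ S.Ω k) (c : Fm 4 C'.X) (x : R) : sz z (pm IC (𝓡 4) S.e c) x =
    s4 (b k) (S.w z).im (S.w z).re (pm (IR 3) (𝓡 4) (S.i ∘ C.j) c) x :=
  sz_eq S.oe (S.bx.ob k) ((S.oj.ld _ (S.eq k (x, z) hz).1).mdifferentiableAt ne0)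
    (fun x => (S.eq k (x, z) hz).2) c

/-- product forms on the new end are product forms on the old end -/
theorem pm_end [Finite κ] {a : Fm 4 C'.X} {β : Fm 3 Y'} {p : Y} (hp : p ∉ slabs b {0}) {s : ℝ}
    (hs : 1 < S.g s) (h : pm (IR 3) (𝓡 4) C'.j a (S.φ p, s) = pu β (S.φ p, s)) :
    pm (IR 3) (𝓡 4) (S.i ∘ C.j) a (p, S.g s) = pu (pm (𝓡 3) (𝓡 3) S.φ β) (p, S.g s) := by
  choose! gi hg using S.gs
  have o : IsOpen (slabs b {0})ᶜ := by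
    rw [← Icc_self]
    exact (S.bx.isClosed 0 0).isOpen_compl
  let Ψ : Y × ℝ → Y' × ℝ := fun q => (S.φ q.1, gi q.2)
  have ev : C'.j ∘ Ψ =ᶠ[𝓝 (p, S.g s)] S.i ∘ C.j := by
    filter_upwards [(o.prod isOpen_Ioi).mem_nhds (show (p, S.g s) ∈ _ ×ˢ Ioi 1 from ⟨hp, hs⟩)]
      with q hq
    exact (S.ej q.1 hq.1 _).trans (by rw [hg _ hq.2]; rfl)
  have h1 : MDifferentiableAt (IR 3) (IR 3) Ψ (p, S.g s) := (C'.oe.contMDiffAt_left
    ((S.oj.ld _ (S.mem_X₀ (p := (p, S.g s)) (.inl hp))).contMDiffAt.congr_of_eventuallyEq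
      ev)).mdifferentiableAt ne0
  have h2 : Ψ (p, S.g s) = (S.φ p, s) := Prod.ext rfl (S.gm.injective (hg _ hs))
  rw [← pm_congr (b := a) ev rfl, ← pm_comp ((C'.oe.contMDiff _).mdifferentiableAt ne0) h1,
    pm_congr_right (b := pu β) (by rw [h2]; exact h), ← Sym24.pm_fst (I := 𝓡 3),
    ← Sym24.pm_fst (I := 𝓡 3), pm_comp mdifferentiableAt_fst h1,
    pm_comp ((S.cm_φ hp).mdifferentiableAt ne0) mdifferentiableAt_fst]
  rfl

/-- **normalisation** -/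
theorem norm [Finite κ] (hb' : ∀ k, Box (b' k)) (hw : Surjective S.w) {oR : Fm 2 R}
    (hR : Ori (𝓡 2) oR) {ζ : Fm 4 C'.X} {β : Fm 3 Y'} (hζ : Z2 ζ) (e : En C'.j ζ β)
    (hβ : ∀ k, SP oR (b' k) β (Ioo (-1) 1)) :
    ∃ (ν : Fm 4 C'.X) (z : Fm 4 C.X) (B : Fm 3 Y), F1 ν ∧ En C'.j ν (0 : Fm 3 Y') ∧ Z2 z ∧ Z2 B ∧
      En C.j z B ∧ (∀ x ∈ S.A, pm (𝓡 4) (𝓡 4) S.i (ζ + dM (𝓡 4) ν) x = z x) ∧
      (∀ k, SP oR (b k) B (Ioo (-1) 1)) ∧
      (∀ p ∉ slabs b (Icc (-2⁻¹) 2⁻¹), B p = pm (𝓡 3) (𝓡 3) S.φ β p) ∧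
      FP oR (pm IC (𝓡 4) S.e (ζ + dM (𝓡 4) ν)) {u | u ∈ S.V ∧ (S.w u).re ≤ S.T} := by
  obtain ⟨ε, hε, e⟩ := e
  obtain ⟨T₁, t1, t2, t3⟩ := S.exists_margin hε
  obtain ⟨T₂, t4, t5⟩ := exists_between t2
  obtain ⟨T₃, t6, t7⟩ := exists_between t5
  have oe := OE.of_oe S.oe
  have hG : FP oR (pm IC (𝓡 4) S.e ζ) {z | T₁ < (S.w z).re ∧ |(S.w z).im| < 1} := fun z hz x => by
    obtain ⟨s, hs⟩ := S.gs _ (t1.trans hz.1)
    obtain ⟨k, hk⟩ := S.ee _ (t1.trans hz.1)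
    rw [rat, sz_eq S.oe (hb' k) ((C'.oe.contMDiff _).mdifferentiableAt ne0) (fun x => hk x s hs),
      s4_pu (hb' k) (e _ (t3 s (hs ▸ hz.1.le)))]
    exact hβ k x _ (abs_lt.1 hz.2)
  obtain ⟨la, Q', l1, l2, l3, l4, l5, l6⟩ := exists_fp hR (hζ.pm oe.mp)
    (S.isCompact_rect (-1) S.T (3 / 4)) (W := {z | (S.w z).re < T₂})
    ((isOpen_lt continuous_const S.cre).inter (isOpen_lt S.cim.abs continuous_const))
    (isOpen_lt S.cre continuous_const) hG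
    (by obtain ⟨z, hz⟩ := hw T₂; exact ⟨z, by simpa [hz] using t4⟩)
    fun z hz => (lt_or_ge (S.w z).re T₂).symm.imp_left fun h =>
      ⟨t4.trans_le h, hz.2.trans_lt (by norm_num)⟩
  obtain ⟨l, m1, m2, m3, m4, -⟩ := oe.exists_push (a := la) (isCompact_univ.prod l3) (subset_univ _)
    fun p _ hp => l5 p fun h => hp ⟨trivial, h⟩
  have hl : F1 l := ⟨m3 l1, m4 1 l2⟩
  set ζ₁ := ζ - dM (𝓡 4) l with hζ₁
  have z1 : Z2 ζ₁ := hζ.sub hl.z2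
  have p1 : ∀ p, pm IC (𝓡 4) S.e ζ₁ p = (pm IC (𝓡 4) S.e ζ - dM IC la) p := fun p => by
    rw [pm_sub, Pi.sub_apply, oe.pm_dM m1 (hl.sm.mono (subset_univ _)) trivial]
    rfl
  have fQ : ∀ z, (S.w z).re ∈ Icc (-1) S.T → |(S.w z).im| ≤ 3 / 4 → ∀ x,
      0 < rat oR (sz z (pm IC (𝓡 4) S.e ζ₁)) x := fun z h1 h2 x => by
    rw [rat, sz_congr (p1 _)]
    exact l6 z ⟨h1, h2⟩ x
  have fG : ∀ z, T₂ ≤ (S.w z).re → |(S.w z).im| < 1 → ∀ x,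
      0 < rat oR (sz z (pm IC (𝓡 4) S.e ζ₁)) x := fun z h1 h2 x => by
    rw [rat, sz_congr (c' := pm IC (𝓡 4) S.e ζ) ((p1 _).trans (by
      rw [Pi.sub_apply, dM_off (l3.isClosed.preimage continuous_snd) l5
        (x := (x, z)) fun h => (l4 h).not_ge h1, sub_zero]))]
    exact hG z ⟨t4.trans_le h1, h2⟩ x
  let f : ℝ → ℝ := fun y => 1 - bp (-2⁻¹) (-4⁻¹) 4⁻¹ 2⁻¹ y
  have f1 : ∀ y ∉ Icc (-2⁻¹ : ℝ) 2⁻¹, f y = 1 := fun y hy => by
    simp only [f]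
    rw [bp_zero (by norm_num) (by norm_num) hy, sub_zero]
  obtain ⟨m, n1, n2, n3⟩ := S.bx.exists_fun (f := f) (contDiff_const.sub (contDiff_bp _ _ _ _)) f1
  have f2 : ∀ y, f y ∈ Icc (0 : ℝ) 1 := fun y =>
    ⟨sub_nonneg.2 (bp_le_one _ _ _ _ _), sub_le_self _ (bp_nonneg _ _ _ _ _)⟩
  have n4 : ∀ p ∈ slabs b (Ioo (-4⁻¹) 4⁻¹), m p = 0 := fun p hp => by
    obtain ⟨k, x, y, hy, rfl⟩ := exists_of_slabs hp
    rw [n2]
    exact sub_eq_zero.2 (bp_one (by norm_num) (by norm_num) hy.1.le hy.2.le).symm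
  have s0 : slabs b {0} ⊆ slabs b (Ioo (-4⁻¹) 4⁻¹) := slabs_mono (by norm_num)
  let k₁ := bp (-1) (-2⁻¹) 2⁻¹ (3 / 4)
  let k₂ := bp (-1) (-2⁻¹) T₂ T₃
  let σ : ℝ → ℝ → ℝ := fun a t => t + a * k₂ t * (T₂ - t) - (1 - a) * k₁ t * t
  let Sf : Y × ℝ → ℝ := fun p => σ (m p.1) p.2
  have c1 : ∀ a b c d, ContMDiff (IR 3) 𝓘(ℝ, ℝ) ∞ fun p : Y × ℝ => bp a b c d p.2 := fun a b c d =>
    (contDiff_bp a b c d).contMDiff.comp contMDiff_snd
  have hS : ContMDiff (IR 3) 𝓘(ℝ, ℝ) ∞ Sf :=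
    (contMDiff_snd.add (((n1.comp contMDiff_fst).mul (c1 _ _ _ _)).mul
      (contMDiff_const.sub contMDiff_snd))).sub
      (((contMDiff_const.sub (n1.comp contMDiff_fst)).mul (c1 _ _ _ _)).mul contMDiff_snd)
  have mp : ∀ p ∈ C.j ⁻¹' S.X₀, ∀ θ ∈ Icc (0 : ℝ) 1,
      (p.1, p.2 + θ * (Sf p - p.2)) ∈ C.j ⁻¹' S.X₀ := fun p hp θ hθ => by
    by_cases h : p.1 ∈ slabs b {0}
    · have e1 : p.2 + θ * (Sf p - p.2) = (1 - θ * k₁ p.2) * p.2 := by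
        simp only [Sf, σ, n4 _ (s0 h)]; ring
      rcases lt_or_ge p.2 1 with h1 | h1
      · refine S.mem_X₀ (.inr ?_)
        have h2 : 0 ≤ θ * k₁ p.2 := mul_nonneg hθ.1 (bp_nonneg _ _ _ _ _)
        have h3 : θ * k₁ p.2 ≤ 1 := mul_le_one₀ hθ.2 (bp_nonneg _ _ _ _ _) (bp_le_one _ _ _ _ _)
        show _ + _ < (1 : ℝ)
        rw [e1]
        rcases le_total 0 p.2 with h4 | h4 <;> nlinarith
      · rw [e1, show k₁ p.2 = 0 from bp_right (by norm_num) (by linarith)]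
        simpa using hp
    · exact S.mem_X₀ (.inl h)
  let K : Set (Y × ℝ) := univ ×ˢ Icc (-1) (3 / 4) ∪ (slabs b (Ioo (-4⁻¹) 4⁻¹))ᶜ ×ˢ Icc (-1) T₃
  have cK : IsCompact K := (isCompact_univ.prod isCompact_Icc).union
    ((S.bx.isOpen isOpen_Ioo).isClosed_compl.isCompact.prod isCompact_Icc)
  have sK : K ⊆ C.j ⁻¹' S.X₀ := fun p hp => S.mem_X₀
    (hp.symm.imp (fun h k => h.1 (s0 k)) fun h => h.2.2.trans_lt (by norm_num))
  obtain ⟨μ, u1, u2, u3⟩ := exists_vcol S.oj hS cK sK (fun p hp => by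
    have h1 : k₁ p.2 = 0 := bp_zero (by norm_num) (by norm_num) fun h => hp (.inl ⟨trivial, h⟩)
    have h2 : m p.1 * k₂ p.2 = 0 := by
      by_cases h : p.1 ∈ slabs b (Ioo (-4⁻¹) 4⁻¹)
      · exact mul_eq_zero_of_left (n4 _ h) _
      · exact mul_eq_zero_of_right _ (bp_zero (by norm_num) t6 fun k => hp (.inr ⟨h, k⟩))
    simp [Sf, σ, h1, h2]) mp z1
  have eZ : ζ + dM (𝓡 4) (μ - l) = ζ₁ + dM (𝓡 4) μ := funext fun x => by
    simp only [hζ₁, Pi.sub_apply, Pi.add_apply, dM_sub ne0 (u1.sm x trivial) (hl.sm x trivial)]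
    abel
  have hZ : Z2 (ζ₁ + dM (𝓡 4) μ) := z1.add u1.z2
  have g1 : ContMDiff (𝓡 3) 𝓘(ℝ, ℝ) ∞ fun p => m p * T₂ := n1.mul contMDiff_const
  have g2 : ∀ p, C.j (p, m p * T₂) ∈ S.X₀ := fun p => S.mem_X₀ (p := (p, m p * T₂))
    (or_iff_not_imp_left.2 fun h => by simp [n4 _ (s0 (not_not.1 h))])
  set B := pm (𝓡 3) (IR 3) (fun p => (p, m p * T₂)) (pm (IR 3) (𝓡 4) (S.i ∘ C.j) ζ₁) with hB
  have zB : Z2 B := (z1.pm S.oj.mp).pm ⟨fun p _ => contMDiff_id.prodMk g1 p, fun p _ => g2 p⟩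
  have K1 : ∀ p : Y × ℝ, p.2 ∈ Ioo (-2⁻¹ : ℝ) 2⁻¹ →
      pm (IR 3) (𝓡 4) (S.i ∘ C.j) (ζ₁ + dM (𝓡 4) μ) p = pu B p := fun p hp => by
    rw [u3 p (S.mem_X₀ (.inr (hp.2.trans (by norm_num))))]
    refine pm_vm_const g1 ?_
    filter_upwards [(isOpen_Ioo.preimage continuous_snd).mem_nhds hp] with q hq
    simp only [Sf, σ, show k₁ q.2 = 1 from bp_one (by norm_num) (by norm_num) hq.1.le hq.2.le,
      show k₂ q.2 = 1 from bp_one (by norm_num) t6 hq.1.le (by linarith [hq.2])]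
    ring
  have K2 : ∀ p : Y × ℝ, p.1 ∉ slabs b (Icc (-2⁻¹) 2⁻¹) → -2⁻¹ < p.2 →
      pm (IR 3) (𝓡 4) (S.i ∘ C.j) (ζ₁ + dM (𝓡 4) μ) p = pu (pm (𝓡 3) (𝓡 3) S.φ β) p := fun p hp h => by
    have h0 : p.1 ∉ slabs b {0} := fun k => hp (slabs_mono (by norm_num) k)
    have h1 : T₂ ≤ Sf p := by
      simp only [Sf, σ, n3 _ hp]
      rcases le_total p.2 T₂ with h2 | h2
      · rw [show k₂ p.2 = 1 from bp_one (by norm_num) t6 h.le h2]; linarith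
      · nlinarith [show k₂ p.2 ≤ 1 from bp_le_one _ _ _ _ _]
    obtain ⟨s, hs⟩ := S.gs (Sf p) (by linarith)
    rw [u3 p (S.mem_X₀ (.inl h0))]
    refine pm_vm_pu hS ?_
    rw [vm, ← hs, ← S.pm_end h0 (a := ζ) (by linarith) (e _ (t3 s (by linarith)))]
    refine pm_congr_right ?_
    rw [hζ₁, Pi.sub_apply,
      dM_off (oe.isCompact_image (isCompact_univ.prod l3) (subset_univ _)).isClosed m2, sub_zero]
    rintro ⟨q, hq, e1⟩
    obtain ⟨k, -, e2⟩ := S.eq_bw (S.mem_X₀ (p := (p.1, S.g s)) (.inl h0)) e1.symm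
    have := congrArg Prod.snd (C.oe.inj e2)
    exact (l4 hq.2).not_ge (le_of_le_of_eq (hs ▸ h1) this)
  have K3 : ∀ p ∉ slabs b (Icc (-2⁻¹) 2⁻¹), B p = pm (𝓡 3) (𝓡 3) S.φ β p := fun p hp => by
    have := (K1 (p, 0) (by norm_num)).symm.trans (K2 (p, 0) hp (by norm_num))
    simpa only [pu, Sym24.dn_up] using congrArg Sym24.dn this
  obtain ⟨z, y1, y2, -, -, y3⟩ := exists_patch' (a := pu B)
    (b := pm (𝓡 4) (𝓡 4) S.i (ζ₁ + dM (𝓡 4) μ)) ((OE.of_oe C.oe).mono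
      (isOpen_lt (continuous_const (y := (-2⁻¹ : ℝ))) continuous_snd) (subset_univ _)) S.isOpen_A
    (fun x => or_iff_not_imp_left.2 fun h => by
      obtain ⟨p, hp, rfl⟩ := not_not.1 h
      exact ⟨p, lt_of_lt_of_le (show (-2⁻¹ : ℝ) < 2⁻¹ by norm_num) hp.2, rfl⟩)
    fun p hp h => by
      rw [pm_comp ((S.oA.ld _ h).mdifferentiableAt ne0) ((C.oe.contMDiff p).mdifferentiableAt ne0)]
      by_cases k : p.1 ∈ slabs b (Icc (-2⁻¹) 2⁻¹)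
      · exact K1 p ⟨hp, not_le.1 fun k' => S.j_mem_A.1 h ⟨k, k'⟩⟩
      · rw [K2 p k hp, pu, pu, K3 _ k]
  refine ⟨μ - l, z, B, u1.sub hl, S.en_zero (by linarith) t7 fun p' s h1 h2 => ?_,
    y3 2 (hZ.pm S.oA.mp) (Sym24.pm_fst (I := 𝓡 3) B ▸ zB.pm
      ⟨fun _ _ => contMDiffAt_fst, mapsTo_univ _ _⟩), zB, ⟨2⁻¹, by norm_num, y2⟩,
    fun x hx => by rw [eZ, y1 x hx], fun k x y hy => ?_, K3, fun u hu x => ?_⟩
  · rw [Pi.sub_apply, u2, m2, sub_zero]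
    · rintro ⟨p, hp, e1⟩
      linarith [S.lev_e h2 e1, show (S.w p.2).re < T₂ from l4 hp.2]
    · rintro ⟨p, hp, e1⟩
      obtain ⟨q, e2⟩ := S.lev_i h2 (sK hp) e1
      obtain rfl := C.oe.inj e2
      rcases hp with hp | hp <;> linarith [hp.2.2]
  · have h1 := g2 (b k (x, y))
    rw [n2] at h1
    obtain ⟨u, hu, e1⟩ := S.ont k x y _ h1
    have e2 := S.sz_Ω hu ζ₁ x
    rw [e1] at e2
    rw [rat, hB, sl_graph (S.bx.ob k) g1 (t := f y * T₂) (fun x => by rw [n2]), ← e2]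
    rcases le_or_gt |y| (3 / 4) with h | h
    · refine fQ u ?_ (by rwa [e1]) x
      rw [e1]
      constructor <;> nlinarith [(f2 y).1, (f2 y).2]
    · refine fG u ?_ (by rw [e1]; exact abs_lt.2 hy) x
      rw [e1, f1 y fun k => by linarith [abs_le.2 k]]
      exact (one_mul _).ge
  · rw [eZ]
    by_cases h : ∃ k, u ∈ S.Ω k
    · obtain ⟨k, hk⟩ := h
      have h0 := (S.eq k (x, u) hk).1
      have h1 := mp _ h0 1 ⟨zero_le_one, le_rfl⟩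
      have h2 : ∀ x, Sf (b k (x, (S.w u).im), (S.w u).re) = σ (f (S.w u).im) (S.w u).re :=
        fun x => by simp only [Sf, n2]
      simp only [bw, one_mul, add_sub_cancel, h2] at h1
      obtain ⟨u', hu', e1⟩ := S.ont k x _ _ h1
      have e2 := S.sz_Ω hu' ζ₁ x
      rw [e1] at e2
      rw [rat, S.sz_Ω hk, s4, pm_congr_right (f := fun x => (b k (x, (S.w u).im), (S.w u).re))
        (u3 _ h0), ← s4, s4_vm (S.bx.ob k) hS h2, ← e2]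
      refine fQ u' ?_ (by rw [e1]; exact hu.1.2.le) x
      rw [e1]
      have a1 := mul_nonneg (f2 (S.w u).im).1 (bp_nonneg (-1) (-2⁻¹) T₂ T₃ (S.w u).re)
      have a2 := mul_nonneg (sub_nonneg.2 (f2 (S.w u).im).2)
        (bp_nonneg (-1) (-2⁻¹) 2⁻¹ (3 / 4) (S.w u).re)
      have a3 := mul_le_of_le_one_right (f2 (S.w u).im).1 (bp_le_one (-1) (-2⁻¹) T₂ T₃ (S.w u).re)
      have a4 := mul_le_of_le_one_right (sub_nonneg.2 (f2 (S.w u).im).2)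
        (bp_le_one (-1) (-2⁻¹) 2⁻¹ (3 / 4) (S.w u).re)
      have a5 := hu.1.1
      have a6 := hu.2
      simp only [σ, k₁, k₂]
      constructor <;> nlinarith
    · rw [rat, sz_congr (c' := pm IC (𝓡 4) S.e ζ₁) (pm_congr_right (by
        rw [Pi.add_apply, dM_off (S.oj.isCompact_image cK sK).isClosed u2, add_zero]
        rintro ⟨p, hp, e1⟩
        exact h (S.hit _ (sK hp) _ e1)))]
      exact fQ u ⟨by linarith [hu.1.1], hu.2⟩ hu.1.2.le x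

end Stp

end Crest.Agent.X212.Bb31
end
end

-- ▼ part X212/Bb31/Opx
section

/-!
# X212/Bb31/Opx (helper31): universal caps survive the surgery `Op`

`Tr`, `Dt`, `Stp.op`, `stpOp`, `UC.op`, `exists_op`.
-/

set_option autoImplicit false
set_option linter.unusedSectionVars false

open Set Filter Topology Function Module Metric
open scoped ContDiff Manifold
open Crest.Agent.R208 Crest.Agent.R208.F Crest.Agent.R208.FI Crest.Agent.X212.Dr59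
  Crest.Agent.X212.Cyl58
open Crest.Agent.X212.Int54 (tp rat Ori SameOn)
open Crest.Agent.X212.Sep15 (EE IR IC CM End Box slab Sw Op)
open Crest.Agent.X212.Orx52 (oZ pr)
open Crest.Agent.X212.Sym24 (pu dt sl dT)

noncomputable section

namespace Crest.Agent.X212.Bb31

variable {Y Y' : CM 3} {R : CM 2} {κ κ' : Type}

theorem Cy.map {n m : ℕ} {Y Y' X : Type} [TopologicalSpace Y] [ChartedSpace (EE n) Y]
    [IsManifold (𝓡 n) ∞ Y] [TopologicalSpace Y'] [ChartedSpace (EE n) Y'] [IsManifold (𝓡 n) ∞ Y']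
    [TopologicalSpace X] [ChartedSpace (EE m) X] [IsManifold (𝓡 m) ∞ X] {o : Fm n Y} {o' : Fm n Y'}
    {O : Fm m X} {j : Y × ℝ → X} (h : Cy o O j) (hj : IsOE (IR n) (𝓡 m) j) {f : Y' → Y}
    (hf : IsOE (𝓡 n) (𝓡 n) f) (p : SameOn (pm (𝓡 n) (𝓡 n) f o) o' univ) {g : ℝ → ℝ}
    (hg : Up g univ) : Cy o' O (j ∘ Prod.map f g) := by
  have k := Orx52.Pos.cy (I := 𝓡 n) (J := 𝓡 n) (s := univ) p (fun y _ => hf.loc y)
    (fun x hx => hg.hasDerivAt hx) fun x hx => (hg x hx).2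
  rw [univ_prod_univ] at k
  exact Orx52.Pos.comp (s := univ) h k (fun y _ => hj.loc y)
    (fun y _ => (hf.prodMap hg.isOE).loc y) (mapsTo_univ _ _)

theorem same_id {n : ℕ} {Y : Type} [TopologicalSpace Y] [ChartedSpace (EE n) Y]
    [IsManifold (𝓡 n) ∞ Y] {o : Fm n Y} (ho : Ori (𝓡 n) o) :
    SameOn (pm (𝓡 n) (𝓡 n) id o) o univ := by
  rw [pm_id]
  exact (Orx52.oriOn ho _).same

theorem Cy.sh {C : End Y} {o : Fm 3 Y} {O : Fm 4 C.X} (ho : Ori (𝓡 3) o) (h : Cy o O C.j) (c : ℝ) :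
    Cy o O (sh C c).j := by
  have := h.map C.oe IsOE.id (same_id ho) (Up.add_const c _)
  exact this

theorem UC.sh {C : End Y} {O : Fm 4 C.X} {A D : Set (Fm 3 Y)} (h : UC C O A D) (c : ℝ) :
    UC (sh C c) O A D := fun a => by
  have e : (Bb31.sh (Bb31.sh C c) a).j = (Bb31.sh C (a + c)).j :=
    funext fun p => congrArg (fun t => C.j (p.1, t)) (add_assoc _ _ _)
  have := h (a + c)
  unfold UC0 Gd End.K at this ⊢
  rw [e]
  exact this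

theorem UC0.mono {C : End Y} {O : Fm 4 C.X} {A A' D D' : Set (Fm 3 Y)} (h : UC0 C O A D)
    (hA : A' ⊆ A) (hD : D ⊆ D') : UC0 C O A' D' := fun ι _ ζ β h1 h2 h3 => by
  obtain ⟨d, hd, k⟩ := h ι ζ β h1 (fun q => hA (h2 q)) h3
  exact ⟨d, hD hd, k⟩

theorem UC.mono {C : End Y} {O : Fm 4 C.X} {A A' D D' : Set (Fm 3 Y)} (h : UC C O A D)
    (hA : A' ⊆ A) (hD : D ⊆ D') : UC C O A' D' := fun c => (h c).mono hA hD

theorem SP.add {b : R × ℝ → Y} {oR : Fm 2 R} {B d : Fm 3 Y} {s : Set ℝ} (h : SP oR b B s)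
    (hd : ∀ x, ∀ y ∈ s, sl y (pm (IR 2) (𝓡 3) b d) x = 0) : SP oR b (B + d) s := fun x y hy => by
  have := hd x y hy
  have k := h x y hy
  rw [rat, sl] at k ⊢
  rw [sl] at this
  rwa [pm_add, Pi.add_apply, map_add, this, add_zero]

/-- the forms which are admissible after a surgery -/
def Tr (oR : Fm 2 R) (b : κ → R × ℝ → Y) (b' : κ' → R × ℝ → Y') (φ : Y → Y')
    (A : Set (Fm 3 Y)) : Set (Fm 3 Y') :=
  {a | (∀ k, SP oR (b' k) a (Ioo (-1) 1)) ∧ ∀ B : Fm 3 Y, Z2 B →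
    (∀ p ∉ slabs b (Icc (-2⁻¹) 2⁻¹), B p = pm (𝓡 3) (𝓡 3) φ a p) →
    (∀ k, SP oR (b k) B (Ioo (-1) 1)) → B ∈ A}

/-- transport of a form which vanishes near the cores -/
structure Dt (b : κ → R × ℝ → Y) (φ : Y → Y') (d : Fm 3 Y) (d' : Fm 3 Y') : Prop where
  zer : ∀ p ∈ slabs b (Ioo (-(3 / 4)) (3 / 4)), d p = 0
  sli : ∀ k x, ∀ y ∈ Ioo (-1 : ℝ) 1, sl y (pm (IR 2) (𝓡 3) (b k) d) x = 0
  eq : ∀ p ∉ slabs b {0}, pm (𝓡 3) (𝓡 3) φ d' p = d p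
  off : ∀ p', (∀ p ∉ slabs b {0}, φ p ≠ p') → d' p' = 0

namespace Stp

variable {C : End Y} {C' : End Y'} {b : κ → R × ℝ → Y} {b' : κ' → R × ℝ → Y'} (S : Stp C C' b b')

theorem exists_tr [Finite κ] {v : Fm 4 C.X} {d : Fm 3 Y} {d' : Fm 3 Y'} (hv : Z2 v)
    (e : En C.j v d) (h : Dt b S.φ d d') : ∃ v' : Fm 4 C'.X, Z2 v' ∧ En C'.j v' d' ∧
      (∀ x ∈ S.A, pm (𝓡 4) (𝓡 4) S.i v' x = v x) ∧ ∀ p ∈ univ ×ˢ S.V, pm IC (𝓡 4) S.e v' p = 0 := by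
  obtain ⟨ε, hε, e⟩ := e
  obtain ⟨v', h1, h2, -, -, h3⟩ := exists_patch (a := v) (b := (0 : Fc R)) S.oA S.oV S.cov'
    fun x hx p hp k₀ => by
      obtain ⟨k, hk, rfl⟩ := S.eq_bw (S.A_sub hx) k₀
      have m1 := (S.cm_bw k p).mdifferentiableAt ne0
      have m2 := (C.oe.contMDiff (bw (b k) S.w p)).mdifferentiableAt ne0
      refine ⟨C.j ∘ bw (b k) S.w, rfl, S.e_eq hk, m2.comp p m1, ?_⟩
      rw [← pm_comp m2 m1, pm_apply, e _ ((neg_lt_zero.2 hε).trans hp.2.1), pu,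
        h.zer (bw (b k) S.w p).1 (S.bx.mem.2 (abs_lt.1 hp.2.2)), map_zero, map_zero]
      rfl
  obtain ⟨δ, hδ, k⟩ := S.exists_eps S.g0
  obtain ⟨P, hP, -⟩ := (OE.of_oe C'.oe).exists_pf (pu d')
  refine ⟨v', h3 2 (hv.mono (subset_univ _)) Cl.zero, ⟨δ, hδ, fun ⟨p', s⟩ hs => ?_⟩, h1, h2⟩
  replace hs := k s hs
  by_cases h0 : ∃ p ∉ slabs b {0}, S.φ p = p'
  · obtain ⟨p, hp, rfl⟩ := h0
    have m := S.mem_X₀ (p := (p, S.g s)) (.inl hp)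
    rw [← hP _ trivial]
    refine pm_congr_right ?_
    rw [S.ej p hp]
    refine eq_of_pm (f := S.i ∘ C.j) (S.oj.ld (p, S.g s) m) ?_
    rw [S.pm_end hp hs (hP _ trivial), pu, h.eq p hp]
    by_cases hA : C.j (p, S.g s) ∈ S.A
    · rw [← pm_comp ((S.oA.ld _ hA).mdifferentiableAt ne0) ((C.oe.contMDiff _).mdifferentiableAt ne0),
        pm_congr_right (h1 _ hA), e _ (by linarith)]
      rfl
    · obtain ⟨l, x, y, hy, rfl⟩ := exists_of_slabs (not_not.1 (mt S.j_mem_A.2 hA)).1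
      have hy' : |y| < 3 / 4 := (abs_le.2 hy).trans_lt (by norm_num)
      obtain ⟨z, -, z1, z2, z3⟩ := S.exists_e m
      rw [h.zer _ (S.bx.mem.2 (abs_lt.1 hy')), map_zero, pm_apply, comp_apply, ← z3,
        zero_of_pm (S.oe.loc _) (h2 (x, z) ⟨trivial, z1 ▸ one_pos.trans hs, z2 ▸ hy'⟩), map_zero]
  · obtain ⟨x, z, z1, z2⟩ := (S.su p').resolve_left h0 s hs
    rw [pu, h.off p' fun p hp e => h0 ⟨p, hp, e⟩, map_zero, pm_apply, z2, zero_of_pm (S.oe.loc _)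
      (h2 (x, z) ⟨trivial, by simpa [z1] using one_pos.trans hs, by norm_num [z1]⟩), map_zero]

/-- **the step** -/
theorem op [Finite κ] (hN : NfStmt) (hb' : ∀ k, Box (b' k)) (hw : Surjective S.w) {o : Fm 3 Y}
    {O : Fm 4 C.X} {O' : Fm 4 C'.X} {oR : Fm 2 R} (ho : Ori (𝓡 3) o) (hO : Ori (𝓡 4) O)
    (hO' : Ori (𝓡 4) O') (hR : Ori (𝓡 2) oR) (hc : Cy o O C.j) (hb : ∀ k, Cy oR o (b k))
    (hi : SameOn (pm (𝓡 4) (𝓡 4) S.i O') O S.X₀) (he : SameOn (pm IC (𝓡 4) S.e O') (oP oR) univ)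
    {A D : Set (Fm 3 Y)} {D' : Set (Fm 3 Y')} (hD : ∀ d ∈ D, ∃ d' ∈ D', Dt b S.φ d d')
    (h : UC0 C O A D) : UC0 C' O' (Tr oR b b' S.φ A) D' := fun ι _ ζ β h1 h2 h3 => by
  choose ν z B n1 n2 n3 n4 n5 n6 n7 n8 n9 using fun q => S.norm hb' hw hR (h1 q) (h3 q) (h2 q).1
  obtain ⟨d, hd, v, v1, v2, v3⟩ := h ι z B n3 (fun q => (h2 q).2 _ (n4 q) (n8 q) (n7 q)) n5
  obtain ⟨d', hd', hdt⟩ := hD d hd
  obtain ⟨v', w1, w2, w3, w4⟩ := S.exists_tr v1 v2 hdt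
  obtain ⟨u, u1, u2, u3⟩ := S.final hN ho hO hO' hc hb hi he
    (Z := fun q => ζ q + dM (𝓡 4) (ν q) + v') (fun q => ((h1 q).add (n1 q).z2).add w1)
    (fun q => (n3 q).add v1) (fun q => (n5 q).add v2)
    (fun q => ((h3 q).add ((n2 q).dM (n1 q))).add w2)
    (fun q x hx => by rw [pm_add, Pi.add_apply, n6 q x hx, w3 x hx]; rfl)
    (fun q k => (n7 q k).add (hdt.sli k)) (fun q z hz x => by
      rw [rat, sz_congr (c' := pm IC (𝓡 4) S.e (ζ q + dM (𝓡 4) (ν q))) (by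
        rw [pm_add, Pi.add_apply, w4 (x, z) ⟨trivial, hz.1⟩, add_zero])]
      exact n9 q z hz x) v3
  refine ⟨d', hd', v' + u, w1.add u1, by simpa using w2.add u2, Gd.of_ex n1 n2 ?_⟩
  convert u3 using 2
  abel

end Stp

/-! ### the surgery -/

section op

variable {b₁ b₂ : R × ℝ → Y} {b₁' b₂' : R × ℝ → Y'}

/-- two boxes -/
def two (b₁ b₂ : R × ℝ → Y) (k : Bool) : R × ℝ → Y := cond k b₁ b₂

theorem slabs_two (s : Set ℝ) : slabs (two b₁ b₂) s = slab b₁ s ∪ slab b₂ s :=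
  (union_eq_iUnion.trans (iUnion_congr fun k => by cases k <;> rfl)).symm

theorem boxes_two (h₁ : Box b₁) (h₂ : Box b₂) (h : ∀ p q, b₁ p ≠ b₂ q) : Boxes (two b₁ b₂) :=
  ⟨fun k => by cases k <;> assumption, fun k l p q e => by
    cases k <;> cases l <;> first | rfl | exact (h _ _ e).elim | exact (h _ _ e.symm).elim⟩

theorem sh_bw (C : End Y) (b : R × ℝ → Y) (p : R × ℂ) :
    (sh C (-1)).j (bw b (fun z => z ^ 2 + 1) p) = C.j (Sep15.sq b p) := by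
  simp [sh, bw, Sep15.sq]

variable {S : Sw b₁ b₂ b₁' b₂'} {C : End Y} {C' : End Y'}

theorem mem_src {p : Y} : p ∈ S.φ.source ↔ p ∉ slabs (two b₁ b₂) {0} := by
  rw [S.src, slabs_two, mem_compl_iff]

/-- the surgery as a fibred step -/
def stpOp (P : Op S C C') (c : ℝ) : Stp (sh C (-1)) (sh C' c) (two b₁ b₂) (two b₁' b₂') where
  i := P.i
  X₀ := P.i.source
  e := P.e
  w z := z ^ 2 + 1
  J z := Complex.normSq (2 * z)
  Ω k := cond k {z | 0 < z.im} {z | z.im < 0}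
  g s := Real.exp (s + c) + 1
  φ := S.φ
  bx := boxes_two S.o₁ S.o₂ S.dj
  oi := OE.of_pd P.i
  oe := P.oe
  ws := by fun_prop
  wJ z := Orx52.pm_oZ_hol (by simpa using (hasDerivAt_pow 2 z).add_const 1)
  Jp z h := Complex.normSq_pos.2 (mul_ne_zero two_ne_zero (by rintro rfl; simp at h))
  cp r := (isCompact_closedBall (0 : ℂ) (|r| + 2)).of_isClosed_subset
    (isClosed_closedBall.preimage (by fun_prop)) fun z hz => by
      rw [mem_preimage, mem_closedBall_zero_iff] at hz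
      have h := norm_sub_le (z ^ 2 + 1) 1
      rw [add_sub_cancel_right, norm_pow, norm_one] at h
      rw [mem_closedBall_zero_iff]
      nlinarith [le_abs_self r, norm_nonneg z, abs_nonneg r]
  oΩ k := by
    cases k
    · exact isOpen_lt Complex.continuous_im continuous_const
    · exact isOpen_lt continuous_const Complex.continuous_im
  eq k p hp := by
    rw [sh_bw]
    cases k
    · exact ⟨P.raw.j_mem.2 (S.sq₂_mem (ne_of_lt hp)), P.dn p hp⟩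
    · exact ⟨P.raw.j_mem.2 (S.sq₁_mem (ne_of_gt hp)), P.up p hp⟩
  hit x hx p e := (P.raw.i_eq_e hx e).elim (fun h => ⟨true, h.1⟩) fun h => ⟨false, h.1⟩
  cov x := (P.raw.cases x).imp id fun ⟨p, _, e⟩ => ⟨p, e⟩
  ax z h := by
    have h0 : z.im = 0 := le_antisymm (not_lt.1 (h true)) (not_lt.1 (h false))
    simp [Sep15.sq_re, Sep15.sq_im, h0, sq_nonneg]
  ont k x y t h := by
    obtain ⟨z, h1, h2⟩ := Sep15.exists_root y (t + -1) ((P.raw.j_mem.1 h).imp_left fun h => by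
      cases k
      · exact S.b₂_mem.1 h
      · exact S.b₁_mem.1 h)
    obtain ⟨h2, h3⟩ := Prod.ext_iff.1 h2
    have h4 : z ^ 2 + 1 = ⟨t, y⟩ := Complex.ext (by
      rw [Complex.add_re, show (z ^ 2).re = t + -1 from h3]; simp) (by simpa [Sep15.sz] using h2)
    cases k
    · exact ⟨-z, by simpa using h1, by rw [neg_sq, h4]⟩
    · exact ⟨z, h1, h4⟩
  slt x hx := by
    obtain ⟨p, hp, rfl⟩ := not_not.1 (mt (fun h => P.src.ge h) hx)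
    exact ⟨p.1, slabs_two _ ▸ hp.1, p.2 + 1, le_add_of_nonneg_left hp.2, by simp [sh]⟩
  gm s t h := by simpa using h
  gc := by fun_prop
  g0 := lt_add_of_pos_left _ (Real.exp_pos _)
  gs t h := ⟨Real.log (t - 1) - c, by simp [Real.exp_log (sub_pos.2 h)]⟩
  ej p hp s := (P.ej p (mem_src.2 hp) (s + c)).trans (by simp [sh])
  ee z h := by
    have h1 : 0 < (z ^ 2).re := by simpa using h
    have h2 : ∀ s, Real.exp (s + c) + 1 = (z ^ 2 + 1).re → Real.log (z ^ 2).re = s + c :=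
      fun s e => by rw [← Real.log_exp (s + c)]; exact congrArg _ (by simpa using e.symm)
    rcases lt_trichotomy z.re 0 with h0 | h0 | h0
    · exact ⟨true, fun x s e => (P.e₁ (x, z) h1 h0).trans (by rw [h2 s e]; simp [sh, two])⟩
    · rw [Sep15.sq_re, h0] at h1
      nlinarith [sq_nonneg z.im]
    · exact ⟨false, fun x s e => (P.e₂ (x, z) h1 h0).trans (by rw [h2 s e]; simp [sh, two])⟩
  su p' := by
    rcases S.cases' p' with ⟨p, hp, e⟩ | ⟨x, rfl⟩ | ⟨x, rfl⟩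
    · exact .inl ⟨p, mem_src.1 hp, e⟩
    · exact .inr fun s _ => ⟨x, _, by rw [neg_sq, Sep15.rt_sq]; simp, P.j₁ (x, 0) (s + c)⟩
    · exact .inr fun s _ => ⟨x, _, by rw [Sep15.rt_sq]; simp, P.j₂ (x, 0) (s + c)⟩

/-- **`OP*`** -/
theorem exists_op (hN : NfStmt) (P : Op S C C') {o : Fm 3 Y} {o' : Fm 3 Y'} {oR : Fm 2 R}
    {O : Fm 4 C.X} (ho : Ori (𝓡 3) o) (ho' : Ori (𝓡 3) o') (hR : Ori (𝓡 2) oR) (hO : Ori (𝓡 4) O)
    (h₁ : Cy oR o b₁) (h₂ : Cy oR o b₂) (hφ : SameOn (pm (𝓡 3) (𝓡 3) S.φ o') o S.φ.source)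
    (hc : Cy o O C.j) : ∃ O' : Fm 4 C'.X, Ori (𝓡 4) O' ∧ Cy o' O' C'.j ∧
      ∀ (A D : Set (Fm 3 Y)) (D' : Set (Fm 3 Y')), (∀ d ∈ D, ∃ d' ∈ D', Dt (two b₁ b₂) S.φ d d') →
        UC C O A D → UC C' O' (Tr oR (two b₁ b₂) (two b₁' b₂') S.φ A) D' := by
  obtain ⟨O', k1, k2, k3, k4⟩ := Orx52.oriOp Y Y' R b₁ b₂ b₁' b₂' S C C' P o o' oR O ho ho' hR hO
    h₁ h₂ hφ hc
  refine ⟨O', k1, k2, fun A D D' hD h c => (stpOp P c).op hN (boxes_two S.o₁' S.o₂' S.dj').ob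
    (fun u => ?_) ho hO k1 hR (hc.sh ho _) (fun k => by cases k <;> assumption) k3 k4 hD (h _)⟩
  obtain ⟨z, hz⟩ := IsAlgClosed.exists_pow_nat_eq (u - 1) two_pos
  exact ⟨z, eq_sub_iff_add_eq.1 hz⟩

end op

end Crest.Agent.X212.Bb31
end
end

-- ▼ part X212/Bb31/Reg

/-!
# X212/Bb31/Reg (helper31): universal caps survive regluing by a commutator

`regOc : RegOc`, `reg2 : Reg2Stmt`, `regStmt : RegStmt`.
-/

set_option autoImplicit false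
set_option linter.unusedSectionVars false

open Set Filter Topology Function Module Metric
open scoped ContDiff Manifold
open Crest.Agent.R208 Crest.Agent.R208.F Crest.Agent.R208.FI Crest.Agent.X212.Dr59
  Crest.Agent.X212.Cyl58
open Crest.Agent.X212.Int54 (tp rat Ori SameOn)
open Crest.Agent.X212.Sep15 (EE IR IC CM End Box slab px Sw Op Rg)
open Crest.Agent.X212.Sym24 (pu dt sl dT)

noncomputable section

namespace Crest.Agent.X212.Bb31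

variable {Y Y' : CM 3} {R : CM 2} {oR : Fm 2 R}

theorem Pos.cmp {s t : Df R} (hs : Pos oR s) (ht : Pos oR t) : Pos oR (s.trans t) := by
  have := Orx52.Pos.comp (s := univ) ht hs (fun y _ => (IsOE.of_diffeo t).loc y)
    (fun y _ => (IsOE.of_diffeo s).loc y) (mapsTo_univ _ _)
  exact this

theorem pos_rfl (hR : Ori (𝓡 2) oR) : Pos oR (Diffeomorph.refl (𝓡 2) R ∞) := same_id hR

theorem Pos.inv (hR : Ori (𝓡 2) oR) {s : Df R} (hs : Pos oR s) : Pos oR s.symm :=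
  Orx52.Pos.of_comp_left (f := s) (g := s.symm) (s := univ)
    (by rw [show s ∘ s.symm = id from funext s.apply_symm_apply]; exact same_id hR) hs
    (fun y _ => (IsOE.of_diffeo s).loc y) (fun y _ => (IsOE.of_diffeo s.symm).loc y) (mapsTo_univ _ _)

section sl

variable {b : R × ℝ → Y} {b' : R × ℝ → Y'} {x : R} {y y' : ℝ}

theorem sl_tr (hb : Box b) (hb' : Box b') {ψ : Y → Y'} {B : Fm 3 Y} {a : Fm 3 Y'}
    (hψ : MDifferentiableAt (𝓡 3) (𝓡 3) ψ (b (x, y))) (e : B (b (x, y)) = pm (𝓡 3) (𝓡 3) ψ a (b (x, y)))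
    {k : Df R} (hk : Pos oR k) (h : ∀ x, ψ (b (x, y)) = b' (k x, y')) :
    0 < rat oR (sl y (pm (IR 2) (𝓡 3) b B)) x ↔ 0 < rat oR (sl y' (pm (IR 2) (𝓡 3) b' a)) (k x) := by
  rw [pos_ld ((IsOE.of_diffeo k).loc x) (hk x trivial), rat, rat, sl_pm hb,
    show sl y' (pm (IR 2) (𝓡 3) b' a) = _ from funext fun x => sl_pm hb' a,
    pm_congr_right (f := fun x => b (x, y)) e,
    pm_comp (f := fun x => b (x, y)) hψ ((cm_sl hb y x).mdifferentiableAt ne0),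
    pm_comp ((cm_sl hb' y' _).mdifferentiableAt ne0) ((k.contMDiff x).mdifferentiableAt ne0),
    show (ψ ∘ fun x => b (x, y)) = _ from funext h]
  rfl

theorem sl_map (hb : Box b) {k : Df R} (hk : Pos oR k) {σ : ℝ → ℝ} (hσ : Up σ univ) {a : Fm 3 Y} :
    0 < rat oR (sl y (pm (IR 2) (𝓡 3) (b ∘ Prod.map k σ) a)) x ↔
      0 < rat oR (sl (σ y) (pm (IR 2) (𝓡 3) b a)) (k x) :=
  sl_tr (ψ := id) (hb.sub k hσ) hb mdifferentiableAt_id (by rw [pm_id]) hk fun _ => rfl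

theorem SP.map (hb : Box b) {k : Df R} (hk : Pos oR k) {σ : ℝ → ℝ} (hσ : Up σ univ) {a : Fm 3 Y}
    {s t : Set ℝ} (h : SP oR b a t) (hs : MapsTo σ s t) : SP oR (b ∘ Prod.map k σ) a s :=
  fun _ _ hy => (sl_map hb hk hσ).2 (h _ _ (hs hy))

theorem sp_of_aa (hb : Box b) {o β τ a : Fm 3 Y} {U : Set Y} {s : Set ℝ} (hc : Cy oR o b)
    (dy : Dy b τ s) (sub : slab b s ⊆ U) (ha : a ∈ AA o β U τ) : SP oR b a s := fun x y hy => by
  obtain ⟨f, h1, h2⟩ := dy x y hy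
  exact (pos_box' hb hc h1 h2 (ha.1.dg _ trivial)).1 (ha.2.2 _ (sub ((mem_slab hb).2 hy)))

end sl

theorem notMem_slabs {b₁ b₂ : R × ℝ → Y} {b₁' b₂' : R × ℝ → Y'} (S : Sw b₁ b₂ b₁' b₂') {s : Set ℝ}
    {p : Y} (hp : p ∈ S.φ.source) (h : p ∉ slabs (two b₁ b₂) s) :
    S.φ p ∉ slabs (two b₁' b₂') s := by
  rw [slabs_two] at h ⊢
  have k := S.φ.map_source hp
  rintro (⟨q, hq, e⟩ | ⟨q, hq, e⟩)
  · have h0 := S.b₁'_mem.1 (e ▸ k)
    rcases h0.lt_or_gt with h1 | h1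
    · exact h (.inl ⟨q, hq, S.φ.injOn (S.b₁_mem.2 h0) hp ((S.lo₁ q h1).trans e)⟩)
    · exact h (.inr ⟨q, hq, S.φ.injOn (S.b₂_mem.2 h0) hp ((S.hi₂ q h1).trans e)⟩)
  · have h0 := S.b₂'_mem.1 (e ▸ k)
    rcases h0.lt_or_gt with h1 | h1
    · exact h (.inr ⟨q, hq, S.φ.injOn (S.b₂_mem.2 h0) hp ((S.lo₂ q h1).trans e)⟩)
    · exact h (.inl ⟨q, hq, S.φ.injOn (S.b₁_mem.2 h0) hp ((S.hi₁ q h1).trans e)⟩)

section reg

variable {b : R × ℝ → Y} {h : Df R} {b' : R × ℝ → Y'} {G : Rg b h b'} {o β τ : Fm 3 Y} {U : Set Y}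
  {o' β' τ' : Fm 3 Y'} {U' : Set Y'} {s t : Df R} {σ₁ σ₂ : ℝ → ℝ}

theorem Mt.cy' (m : Mt G oR o β U τ o' β' U' τ') (hh : Pos oR h) : Cy oR o' b' := by
  have k : ∀ {u : Set ℝ} (k : Df R), IsOpen u → 0 ∉ u → Pos oR k →
      (∀ p : R × ℝ, p.2 ∈ u → G.φ (b p) = b' (px k p)) →
      Orx52.Pos (IR 2) (𝓡 3) b' (univ ×ˢ u) (Orx52.cy oR) o' := fun {u} k hu h0 hk e => by
    have s1 : MapsTo b (univ ×ˢ u) G.φ.source := fun p hp => G.b_mem.2 fun e => h0 (e ▸ hp.2)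
    have h1 := (Orx52.Pos.comp (t := univ ×ˢ u) m.ori (m.cy.mono (subset_univ _))
      (fun _ => Orx52.ldp G.φ) (fun p _ => G.o.loc p) s1).congr (f' := b' ∘ Prod.map k id)
      (isOpen_univ.prod hu) fun p hp => (e p hp.2).symm
    have h2 := h1.of_comp (Orx52.Pos.cy (s := univ) hk (fun y _ => (IsOE.of_diffeo k).loc y)
      (fun x _ => hasDerivAt_id x) fun _ _ => one_pos) (fun p _ => G.o'.loc _)
      fun p _ => ((IsOE.of_diffeo k).prodMap IsOE.id).loc p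
    rwa [prodMap_image_prod, image_id, image_univ, (show Surjective k from k.surjective).range_eq]
      at h2
  refine Orx52.Pos.dense Orx52.dense_ne isOpen_univ (((k (Diffeomorph.refl (𝓡 2) R ∞) isOpen_Iio
    (lt_irrefl (0 : ℝ)) (pos_rfl m.hR) G.lo).union (k h isOpen_Ioi (lt_irrefl (0 : ℝ)) hh G.hi)).mono
      fun p hp => (lt_or_gt_of_ne hp.2).imp (fun h => ⟨trivial, h⟩) fun h => ⟨trivial, h⟩)
    (Orx52.oriOn (Orx52.ori_cy m.hR) _) (Orx52.oriOn m.ho' univ) (fun p _ => G.o'.loc p)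
    (mapsTo_univ _ _)

variable (M : Sep15.Cm G t s σ₁ σ₂)

theorem cm_map {p : Y} (hp : p ∈ M.S₁.φ.source) : M.S₁.φ p ∈ M.S₂.φ.source := by
  rw [M.S₂.src, Sep15.slab_px _ (show Surjective (s : R → R) from s.surjective), ← M.S₁.tgt]
  exact M.S₁.φ.map_source hp

theorem cm_ld {p : Y} (hp : p ∈ M.S₁.φ.source) :
    IsLocalDiffeomorphAt (𝓡 3) (𝓡 3) ∞ (M.S₂.φ ∘ M.S₁.φ) p :=
  ld_comp (Orx52.ldp _ (cm_map M hp)) (Orx52.ldp _ hp)

theorem cm_slabs (u : Set ℝ) : slabs (two (b ∘ Prod.map id σ₁) (b ∘ Prod.map t σ₂)) u =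
    slab b (σ₁ '' u ∪ σ₂ '' u) := by
  rw [slabs_two, Sep15.slab_sub b surjective_id, Sep15.slab_sub b (t := t) t.surjective, slab, slab,
    slab, ← image_union, ← prod_union]

theorem cm_ev {p : Y} (hp : p ∉ slab b (Icc (σ₁ 0) (σ₂ 0))) : M.S₂.φ ∘ M.S₁.φ =ᶠ[𝓝 p] G.φ :=
  eventually_of_mem ((isCompact_slab G.o _ _).isClosed.isOpen_compl.mem_nhds hp) M.out

theorem cm_split {p : Y} (hp : p ∈ M.S₁.φ.source) :
    p ∈ slab b (Ioo (σ₁ 0) (σ₂ 0)) ∨ p ∉ slab b (Icc (σ₁ 0) (σ₂ 0)) := by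
  refine or_iff_not_imp_right.2 fun h1 => ?_
  obtain ⟨q, hq, rfl⟩ := not_not.1 h1
  rw [mem_src, cm_slabs, mem_slab G.o, image_singleton, image_singleton] at hp
  exact ⟨q, ⟨trivial, lt_of_le_of_ne hq.2.1 fun h => hp (.inl h.symm),
    lt_of_le_of_ne hq.2.2 fun h => hp (.inr h)⟩, rfl⟩

theorem cm_pos (m : Mt G oR o β U τ o' β' U' τ') (hs : Pos oR s) (hh : Pos oR h) :
    Orx52.Pos (𝓡 3) (𝓡 3) (M.S₂.φ ∘ M.S₁.φ) M.S₁.φ.source o o' := fun p hp => by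
  rcases cm_split M hp with ⟨q, hq, rfl⟩ | h1
  · have h1 : Orx52.Pos (IR 2) (𝓡 3) ((M.S₂.φ ∘ M.S₁.φ) ∘ b) {q} (Orx52.cy oR) o' :=
      Orx52.Pos.congr' (((m.cy' hh).map G.o' (IsOE.of_diffeo s.symm) (hs.inv m.hR) (Up.id _)).mono
        (subset_univ _)) fun _ e => e ▸ eventually_of_mem
          ((isOpen_Ioo.preimage continuous_snd).mem_nhds hq.2) M.mid
    exact h1.of_comp (m.cy.mono (subset_univ _)) (fun _ e => e ▸ cm_ld M hp) (fun _ _ => G.o.loc _)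
      _ ⟨q, rfl, rfl⟩
  · rw [pm_congr (b := o') (cm_ev M h1) rfl]
    exact m.ori p (G.mem_of_notMem (mem_Icc.2 ⟨M.lv.neg.le, M.lv.pos.le⟩) h1)

theorem mem_tr (m : Mt G oR o β U τ o' β' U' τ') (hs : Pos oR s) (ht : Pos oR t) (hh : Pos oR h)
    (r₁ : ∀ y, σ₁ y ∈ Ioo (-2⁻¹ : ℝ) 2⁻¹) (r₂ : ∀ y, σ₂ y ∈ Ioo (-2⁻¹ : ℝ) 2⁻¹) :
    AA o' β' U' τ' ⊆ Tr oR (two M.c₁ (M.c₂ ∘ px s))
      (two (b' ∘ Prod.map id σ₁) (b' ∘ Prod.map (fun x => h (t x)) σ₂)) M.S₂.φ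
      (Tr oR (two (b ∘ Prod.map id σ₁) (b ∘ Prod.map t σ₂)) (two M.c₁ M.c₂) M.S₁.φ
        (AA o β U τ)) := fun a ha => by
  have i1 : Ioo (-2⁻¹ : ℝ) 2⁻¹ ⊆ Ioo (-1) 1 := Ioo_subset_Ioo (by norm_num) (by norm_num)
  have i2 : Icc (-2⁻¹ : ℝ) 2⁻¹ ⊆ Ioo (-1) 1 := Icc_subset_Ioo (by norm_num) (by norm_num)
  have i3 : Icc (σ₁ 0) (σ₂ 0) ⊆ Icc (-2⁻¹) 2⁻¹ := Icc_subset_Icc (r₁ 0).1.le (r₂ 0).2.le
  have h0 : (0 : ℝ) ∈ Icc (σ₁ 0) (σ₂ 0) := ⟨M.lv.neg.le, M.lv.pos.le⟩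
  have sa := sp_of_aa G.o' (m.cy' hh) m.dy' m.sub' ha
  refine ⟨fun k => ?_, fun B₁ _ e₁ p₁ => ⟨fun k => ?_, fun B hB e p => ?_⟩⟩
  · cases k
    · exact sa.map G.o' (ht.cmp hh) M.lv.u₂ fun y _ => i1 (r₂ y)
    · exact sa.map G.o' (pos_rfl m.hR) M.lv.u₁ fun y _ => i1 (r₁ y)
  · cases k
    · intro x y hy
      obtain ⟨x, rfl⟩ := (show Surjective s from s.surjective) x
      exact (sl_map M.S₁.o₂' hs (Up.id _)).1 (p₁ false x y hy)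
    · exact p₁ true
  have k1 : ∀ q ∉ slab b (σ₁ '' Icc (-2⁻¹) 2⁻¹ ∪ σ₂ '' Icc (-2⁻¹) 2⁻¹), q ∈ M.S₁.φ.source ∧
      B q = pm (𝓡 3) (𝓡 3) (M.S₂.φ ∘ M.S₁.φ) a q := fun q hq => by
    rw [← cm_slabs (t := t)] at hq
    have h1 : q ∈ M.S₁.φ.source := mem_src.2 fun k => hq (slabs_mono (by norm_num) k)
    have h2 := notMem_slabs M.S₁ h1 hq
    rw [slabs_two, ← Sep15.slab_px M.c₂ (show Surjective s from s.surjective), ← slabs_two] at h2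
    refine ⟨h1, ?_⟩
    rw [e q hq, pm_congr_right (e₁ _ h2), pm_comp ((Orx52.ldp _ (cm_map M h1)).mdifferentiableAt ne0)
      ((Orx52.ldp _ h1).mdifferentiableAt ne0)]
  have k2 : ∀ q ∉ slab b (Icc (-2⁻¹) 2⁻¹), B q = pm (𝓡 3) (𝓡 3) G.φ a q := fun q hq => by
    rw [(k1 q fun k => hq (Sep15.slab_mono b (union_subset
      (MapsTo.image_subset fun y _ => Ioo_subset_Icc_self (r₁ y))
      (MapsTo.image_subset fun y _ => Ioo_subset_Icc_self (r₂ y))) k)).2]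
    exact pm_congr (cm_ev M fun k => hq (Sep15.slab_mono b i3 k)) rfl
  have k3 : SP oR b B (Ioo (-1) 1) := fun x y hy => by
    by_cases h1 : y ∈ σ₁ '' Icc (-2⁻¹) 2⁻¹ ∪ σ₂ '' Icc (-2⁻¹) 2⁻¹
    · rcases h1 with ⟨y, hy', rfl⟩ | ⟨y, hy', rfl⟩
      · exact (sl_map G.o (pos_rfl m.hR) M.lv.u₁).1 (p true x y (i2 hy'))
      · obtain ⟨x, rfl⟩ := (show Surjective t from t.surjective) x
        exact (sl_map G.o ht M.lv.u₂).1 (p false x y (i2 hy'))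
    · have h2 := fun x => k1 (b (x, y)) fun k => h1 ((mem_slab G.o).1 k)
      have h3 : ∀ k : Df R, Pos oR k → (∀ x, (M.S₂.φ ∘ M.S₁.φ) (b (x, y)) = b' (k x, y)) →
          0 < rat oR (sl y (pm (IR 2) (𝓡 3) b B)) x := fun k hk e =>
        (sl_tr G.o G.o' ((cm_ld M (h2 x).1).mdifferentiableAt ne0) (h2 x).2 hk e).2 (sa _ _ hy)
      rcases cm_split M (h2 x).1 with h4 | h4 <;> rw [mem_slab G.o] at h4
      · exact h3 _ (hs.inv m.hR) fun x => M.mid (x, y) h4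
      · have h5 := fun x => M.out (b (x, y)) fun k => h4 ((mem_slab G.o (p := (x, y))).1 k)
        rcases (show y ≠ 0 from fun e => h4 (e ▸ h0)).lt_or_gt with h6 | h6
        · exact h3 _ (pos_rfl m.hR) fun x => (h5 x).trans (G.lo _ h6)
        · exact h3 _ hh fun x => (h5 x).trans (G.hi _ h6)
  obtain ⟨C, c1, c2, c3⟩ := ha.2.1
  have src : ∀ {u : Set ℝ}, 0 ∈ u → ∀ q ∉ slab b u, q ∈ G.φ.source := fun h _ => G.mem_of_notMem h
  refine ⟨hB, ⟨slab b (Icc (-2⁻¹) 2⁻¹) ∪ (slab b (Ioo (-2⁻¹) 2⁻¹))ᶜ ∩ G.φ ⁻¹' C,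
    (isCompact_slab G.o _ _).isClosed.union (ContinuousOn.preimage_isClosed_of_isClosed
      (G.φ.contMDiffOn.continuousOn.mono (src (by norm_num)))
      (Sep15.isOpen_slab G.o isOpen_Ioo).isClosed_compl c1), fun q hq => ?_, fun q hq => ?_⟩,
    fun q hq => ?_⟩
  · by_cases h1 : q ∈ slab b (Ioo (-1) 1)
    · exact m.sub h1
    · exact (m.mem q h1).2 (c2 (hq.resolve_left fun k => h1 (Sep15.slab_mono b i2 k)).2)
  · rw [mem_union, not_or] at hq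
    rw [k2 q hq.1, ← m.be q hq.1]
    exact pm_congr_right (c3 _ fun k =>
      hq.2 ⟨fun k' => hq.1 (Sep15.slab_mono b Ioo_subset_Icc_self k'), k⟩)
  · by_cases h1 : q ∈ slab b (Ioo (-1) 1)
    · obtain ⟨⟨x, y⟩, hy, rfl⟩ := h1
      obtain ⟨f, f1, f2⟩ := m.dy x y hy.2
      exact (pos_box' G.o m.cy f1 f2 (hB.dg _ trivial)).2 (k3 x y hy.2)
    · obtain ⟨f, f1, f2⟩ := m.ta q hq h1
      have h2 := src (by norm_num) q h1
      have h3 := (pos_ld (Orx52.ldp _ h2) (m.ori q h2) _).1 (ha.2.2 _ ((m.mem q h1).1 hq))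
      rw [rat, pm_mul, Pi.mul_apply, f2, ← k2 q fun k => h1 (Sep15.slab_mono b i2 k), mul_smul_comm,
        map_smul, smul_eq_mul, mul_div_assoc] at h3
      exact (pos_iff_pos_of_mul_pos h3).1 f1

theorem dt_zero {κ : Type} (b : κ → R × ℝ → Y) (φ : Y → Y') : Dt b φ 0 0 :=
  ⟨fun _ _ => rfl, fun _ _ _ _ => by rw [pm_zero]; exact map_zero _, fun _ _ => map_zero _,
    fun _ _ => rfl⟩

/-- the orientations along the two surgeries -/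
theorem exists_cm_ori (m : Mt G oR o β U τ o' β' U' τ') (hs : Pos oR s) (ht : Pos oR t)
    (hh : Pos oR h) : ∃ o₁ : Fm 3 M.Y₁, Ori (𝓡 3) o₁ ∧ Cy oR o (b ∘ Prod.map id σ₁) ∧
      Cy oR o (b ∘ Prod.map t σ₂) ∧ Cy oR o₁ M.c₁ ∧ Cy oR o₁ M.c₂ ∧ Cy oR o₁ (M.c₂ ∘ px s) ∧
      SameOn (pm (𝓡 3) (𝓡 3) M.S₁.φ o₁) o M.S₁.φ.source ∧
      SameOn (pm (𝓡 3) (𝓡 3) M.S₂.φ o') o₁ M.S₂.φ.source := by
  have c1 := m.cy.map G.o IsOE.id (same_id m.hR) M.lv.u₁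
  have c2 := m.cy.map G.o (IsOE.of_diffeo t) ht M.lv.u₂
  obtain ⟨o₁, k1, k2, k3, k4⟩ := Orx52.oriSw _ _ _ _ _ _ _ M.S₁ o oR m.ho m.hR c1 c2
  have c3 := k3.map M.S₁.o₂' (IsOE.of_diffeo s) hs (Up.id _)
  refine ⟨o₁, k1, c1, c2, k2, k3, c3, k4, ?_⟩
  have := (cm_pos M m hs hh).of_comp k4 (fun _ h => Orx52.ldp _ (cm_map M h)) fun _ => Orx52.ldp _
  rw [M.S₁.φ.toPartialEquiv.image_source_eq_target] at this
  refine this.mono fun q hq => ?_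
  rwa [M.S₂.src, Sep15.slab_px _ (show Surjective (s : R → R) from s.surjective), ← M.S₁.tgt] at hq

end reg

theorem regOc : RegOc := by
  intro Y Y' R b h b' G s t oR o β U τ o' β' U' τ' σ₁ σ₂ M C C₁ C₂ hs ht r₁ r₂ m P₁ P₂ ⟨O, h1, h2, h3⟩
  obtain rfl : h = ((t.symm.trans s).trans t).trans s.symm := funext fun x => by
    have := congrArg s.symm (M.eq (t.symm x))
    simpa using this
  have hh := (((ht.inv m.hR).cmp hs).cmp ht).cmp (hs.inv m.hR)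
  obtain ⟨o₁, k1, k2, k3, k4, -, k5, k6, k7⟩ := exists_cm_ori M m hs ht hh
  obtain ⟨O₁, a1, a2, a3⟩ := exists_op Sym24.nfStmt P₁ m.ho k1 m.hR h1 k2 k3 k6 h2
  obtain ⟨O₂, b1, b2, b3⟩ := exists_op Sym24.nfStmt P₂ k1 m.ho' m.hR a1 k4 k5 k7 a2
  exact ⟨O₂, b1, b2, (b3 _ _ {0} (forall_eq.2 ⟨0, rfl, dt_zero _ _⟩)
    (a3 _ _ {0} (forall_eq.2 ⟨0, rfl, dt_zero _ _⟩) h3)).mono (mem_tr M m hs ht hh r₁ r₂)
      Subset.rfl⟩

theorem reg2 : Reg2Stmt := by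
  intro P Q Y Y' R b h b' G s t oR o β U τ o' β' U' τ' hP hs ht e m ⟨C, h1, h2⟩
  obtain rfl : h = ((t.symm.trans s).trans t).trans s.symm := funext e
  obtain ⟨σ₁, σ₂, L, r₁, r₂⟩ := Sep15.exists_lv (r := 2⁻¹) (by norm_num)
  obtain ⟨M⟩ := Sep15.exists_cm G t s (fun x => by simp) L
  obtain ⟨C₁, ⟨P₁⟩⟩ := Sep15.opStmt _ _ _ _ _ _ _ M.S₁ C
  obtain ⟨C₂, ⟨P₂⟩⟩ := Sep15.opStmt _ _ _ _ _ _ _ M.S₂ C₁
  exact ⟨C₂, hP _ _ M C C₁ C₂ P₁ P₂ h1, regOc _ _ _ _ _ _ G s t oR o β U τ o' β' U' τ' _ _ M C C₁ C₂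
    hs ht (fun y => ⟨(r₁ y).1, (r₁ y).2.trans (by norm_num)⟩)
    (fun y => ⟨lt_trans (by norm_num) (r₂ y).1, (r₂ y).2⟩) m P₁ P₂ h2⟩

theorem regStmt : RegStmt := fun P hP Y Y' R b h b' G s t oR o β U τ o' β' U' τ' hR hs ht e m =>
  reg2 P P Y Y' R b h b' G s t oR o β U τ o' β' U' τ'
    (fun σ₁ σ₂ M C C₁ C₂ => hP.cm Y Y' R oR b h b' G s t σ₁ σ₂ M C C₁ C₂ hR m.hR hs ht) hs ht e m

end Crest.Agent.X212.Bb31
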